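import Vale.Agent.P217.HomPoints
import Vale.Agent.P217.Formal.Hom
import Mathlib.Data.Nat.Choose.Lucas

/-!
# P217, module Action: tools on homomorphisms, injectivity of `law p`, scaling of parameters
-/

open MvPowerSeries Finset
open scoped Classical

noncomputable section

namespace Vale.Agent.P217

universe u v w

section HomTools

variable {A : Type u} [CommRing A] {B : Type v} [CommRing B]

lemma IsHom.map' {F G : FormalGroup A} {φ : PowerSeries A} (g : A →+* B) (h : IsHom F G φ) :
    IsHom (F.map g) (G.map g) (PowerSeries.map g φ) := by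
  refine ⟨?_, ?_⟩
  · rw [← PowerSeries.coeff_zero_eq_constantCoeff_apply, PowerSeries.coeff_map,
      PowerSeries.coeff_zero_eq_constantCoeff_apply, h.1, map_zero]
  · have e := congrArg (MvPowerSeries.map g) h.2
    rw [map_subst_one g φ F.zero_constantCoeff,
      map_fadd g G (constantCoeff_subst_zero φ h.1 (constantCoeff_X _))
        (constantCoeff_subst_zero φ h.1 (constantCoeff_X _)),
      map_subst_one g φ (constantCoeff_X _), map_subst_one g φ (constantCoeff_X _), map_X,
      map_X] at e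
    exact e

lemma IsHom.of_map {F G : FormalGroup A} {φ : PowerSeries A} (g : A →+* B)
    (hg : Function.Injective g) (hφ : PowerSeries.constantCoeff φ = 0)
    (h : IsHom (F.map g) (G.map g) (PowerSeries.map g φ)) : IsHom F G φ := by
  refine ⟨hφ, MvPowerSeries.ext fun d => hg ?_⟩
  rw [← coeff_map, ← coeff_map, map_subst_one g φ F.zero_constantCoeff,
    map_fadd g G (constantCoeff_subst_zero φ hφ (constantCoeff_X _))
      (constantCoeff_subst_zero φ hφ (constantCoeff_X _)),
    map_subst_one g φ (constantCoeff_X _), map_subst_one g φ (constantCoeff_X _), map_X, map_X]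
  exact congrArg (coeff d) h.2

/-- The inverse of an isomorphism is a homomorphism. -/
lemma IsHom.inverse {F G : FormalGroup A} {ψ : PowerSeries A} (h : IsHom F G ψ)
    (hu : IsUnit (PowerSeries.coeff 1 ψ)) : IsHom G F (ψ.substInvOfIsUnit hu) := by
  set i := ψ.substInvOfIsUnit hu with hi
  have hi0 : PowerSeries.constantCoeff i = 0 := PowerSeries.constantCoeff_substInvOfIsUnit _ hu
  have hcancel : ∀ {a : MvPowerSeries (Fin 2) A}, constantCoeff a = 0 →
      ψ.subst (i.subst a) = a := by
    intro a ha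
    rw [← PowerSeries.subst_comp_subst_apply (PowerSeries.HasSubst.substInvOfIsUnit _ hu)
      (PowerSeries.HasSubst.of_constantCoeff_zero ha),
      PowerSeries.subst_substInvOfIsUnit_right _ h.1 hu,
      PowerSeries.subst_X (PowerSeries.HasSubst.of_constantCoeff_zero ha)]
  refine ⟨hi0, subst_injective h.1 hu (constantCoeff_subst_zero _ hi0 G.zero_constantCoeff)
    (constantCoeff_fadd F (constantCoeff_subst_zero _ hi0 (constantCoeff_X _))
      (constantCoeff_subst_zero _ hi0 (constantCoeff_X _))) ?_⟩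
  rw [hcancel G.zero_constantCoeff,
    h.subst_fadd (constantCoeff_subst_zero _ hi0 (constantCoeff_X _))
      (constantCoeff_subst_zero _ hi0 (constantCoeff_X _)),
    hcancel (constantCoeff_X _), hcancel (constantCoeff_X _)]
  conv_lhs => rw [← id_eq G.toPowerSeries, ← MvPowerSeries.subst_self]
  exact congrArg (fun g => MvPowerSeries.subst g G.toPowerSeries)
    (funext fun j => by fin_cases j <;> rfl)

/-- The source of an isomorphism is determined by the target. -/
lemma IsHom.source_unique {F F' G : FormalGroup A} {ψ : PowerSeries A} (h : IsHom F G ψ)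
    (h' : IsHom F' G ψ) (hu : IsUnit (PowerSeries.coeff 1 ψ)) : F = F' :=
  FormalGroup.ext (subst_injective h.1 hu F.zero_constantCoeff F'.zero_constantCoeff
    (h.2.trans h'.2.symm))

lemma fadd_zero' {σ : Type w} (F : FormalGroup A) {a : MvPowerSeries σ A}
    (ha : constantCoeff a = 0) : fadd F a 0 = a :=
  FormalGroup.add_zero F (PowerSeries.HasSubst.of_constantCoeff_zero ha)

lemma zero_fadd' {σ : Type w} (F : FormalGroup A) {a : MvPowerSeries σ A}
    (ha : constantCoeff a = 0) : fadd F 0 a = a :=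
  FormalGroup.zero_add F (PowerSeries.HasSubst.of_constantCoeff_zero ha)

/-- Agreement below `D` passes to formal sums, linearly in degree `D`. -/
lemma coeff_fadd_sub {σ : Type w} (F : FormalGroup A) {a a' b b' : MvPowerSeries σ A}
    (ha : constantCoeff a = 0) (ha' : constantCoeff a' = 0) (hb : constantCoeff b = 0)
    (hb' : constantCoeff b' = 0) {d : σ →₀ ℕ}
    (h1 : ∀ e : σ →₀ ℕ, e.degree < d.degree → coeff e a = coeff e a')
    (h2 : ∀ e : σ →₀ ℕ, e.degree < d.degree → coeff e b = coeff e b') :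
    coeff d (fadd F a b) - coeff d (fadd F a' b') =
      (coeff d a - coeff d a') + (coeff d b - coeff d b') := by
  have hs : HasSubst ![a, b] := hasSubst_pair ha hb
  have hs' : HasSubst ![a', b'] := hasSubst_pair ha' hb'
  set e₀ : Fin 2 →₀ ℕ := Finsupp.single 0 1 with he₀
  set e₁ : Fin 2 →₀ ℕ := Finsupp.single 1 1 with he₁
  have hne : e₀ ≠ e₁ := fun h => by simpa [he₀, he₁] using congrArg (fun e : Fin 2 →₀ ℕ => e 0) h
  have f1 := coeff_subst_finite hs F.toPowerSeries d
  have f2 := coeff_subst_finite hs' F.toPowerSeries d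
  rw [fadd, fadd, coeff_subst hs, coeff_subst hs', ← finsum_sub_distrib f1 f2,
    finsum_eq_sum_of_support_subset _ (s := {e₀, e₁}) ?_]
  · rw [Finset.sum_pair hne, he₀, he₁, F.lin_coeff_X, F.lin_coeff_Y]
    simp [sub_eq_add_neg]
  · intro e he
    rw [Finset.mem_coe, Finset.mem_insert, Finset.mem_singleton]
    by_contra hc
    rw [not_or] at hc
    apply he
    simp only [Finsupp.prod_fintype _ _ (fun i => pow_zero _), Fin.prod_univ_two,
      Matrix.cons_val_zero, Matrix.cons_val_one, smul_eq_mul]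
    rw [← mul_sub]
    by_cases h0 : e = 0
    · subst h0
      simp
    have hdeg : 2 ≤ e 0 + e 1 := by
      rcases (by omega : (e 0 = 0 ∧ e 1 = 0) ∨ (e 0 = 1 ∧ e 1 = 0) ∨ (e 0 = 0 ∧ e 1 = 1) ∨
        2 ≤ e 0 + e 1) with ⟨x, y⟩ | ⟨x, y⟩ | ⟨x, y⟩ | h
      · exact absurd (by ext i; fin_cases i <;> simp [x, y]) h0
      · exact absurd (by ext i; fin_cases i <;> simp [he₀, x, y]) hc.1
      · exact absurd (by ext i; fin_cases i <;> simp [he₁, x, y]) hc.2
      · exact h
    have key : ∀ {x x' y : MvPowerSeries σ A}, constantCoeff x = 0 → constantCoeff x' = 0 →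
        constantCoeff y = 0 → (∀ f : σ →₀ ℕ, f.degree < d.degree → coeff f x = coeff f x') →
        ∀ i j, 2 ≤ i + j → coeff d ((x ^ i - x' ^ i) * y ^ j) = 0 := by
      intro x x' y hx hx' hy hxx i j hij
      rcases i with _ | i
      · simp
      refine coeff_of_lt_order (lt_of_lt_of_le ?_ (le_order_mul))
      refine lt_of_lt_of_le ?_ (add_le_add (le_order_pow_sub_pow hx hx' hxx i)
        (le_order_pow_of_constantCoeff_eq_zero j hy))
      rw [← Nat.cast_add]
      exact Nat.cast_lt.mpr (by omega)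
    have e1 := key ha ha' hb h1 (e 0) (e 1) hdeg
    have e2 := key hb hb' ha' h2 (e 1) (e 0) (by omega)
    rw [sub_mul, map_sub] at e1
    rw [sub_mul, map_sub, mul_comm (b ^ e 1), mul_comm (b' ^ e 1)] at e2
    rw [show coeff d (a ^ e 0 * b ^ e 1) - coeff d (a' ^ e 0 * b' ^ e 1) = 0 by
      linear_combination e1 + e2, mul_zero]

end HomTools

section LawFacts

variable (p : ℕ) [hp : Fact p.Prime] {A : Type u} [CommRing A]

omit hp in
lemma vHonda_map {B : Type v} [CommRing B] (g : A →+* B) (n : ℕ) :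
    (fun i => g (vHonda n i)) = vHonda (A := B) n := funext fun i => by
  simp [vHonda, apply_ite g]

/-- `law p v` only depends on `v i` for `1 ≤ i`. -/
lemma law_congr {v v' : ℕ → A} (h : ∀ i, 1 ≤ i → v i = v' i) : law p v = law p v' := by
  refine FormalGroup.ext (MvPowerSeries.ext fun d => ?_)
  have hd : deg d ≤ p ^ (d.degree + 1) :=
    ((deg_eq_degree d).le.trans (Nat.lt_pow_self hp.out.one_lt).le).trans
      (Nat.pow_le_pow_right hp.out.pos (Nat.le_succ _))
  have e := law_sub_lowDegree p A v v' (d.degree + 1) (by omega) (fun i a _ => h i a) d hd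
  rw [h _ (by omega), sub_self, neg_zero, zero_mul, sub_eq_zero] at e
  exact e

/-- The integer `choose (p^(k+1)) (p^k) / p` is prime to `p`. -/
lemma not_dvd_choose_div (k : ℕ) : ¬ p ∣ (p ^ (k + 1)).choose (p ^ k) / p := by
  intro h
  have hdvd : p ∣ (p ^ (k + 1)).choose (p ^ k) := hp.out.dvd_choose_pow
    (pow_ne_zero _ hp.out.ne_zero)
    ((Nat.pow_lt_pow_iff_right hp.out.one_lt).mpr (Nat.lt_succ_self k)).ne
  have h2 : p ^ 2 ∣ (p ^ (k + 1)).choose (p ^ k) := by
    rw [pow_two]
    exact (Nat.dvd_div_iff_mul_dvd hdvd).mp h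
  have e := hp.out.emultiplicity_choose_prime_pow
    (Nat.pow_le_pow_right hp.out.pos (Nat.le_succ k) : p ^ k ≤ p ^ (k + 1))
    (pow_ne_zero _ hp.out.ne_zero)
  rw [multiplicity_pow_self hp.out.ne_zero hp.out.prime.not_isUnit, Nat.add_sub_cancel_left] at e
  have h3 := le_emultiplicity_of_pow_dvd h2
  rw [e] at h3
  norm_cast at h3

/-- A multiple of `cPoly` lying in a subring has its factor there. -/
lemma mem_of_mul_cPoly {j : ℕ} (hj : 1 ≤ j) (S : Subring A) {x : A}
    (h : ∀ d : Fin 2 →₀ ℕ, d.degree ≤ p ^ j → x * coeff d (cPoly p A j) ∈ S) : x ∈ S := by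
  obtain ⟨k, rfl⟩ : ∃ k, j = k + 1 := ⟨j - 1, by omega⟩
  have hval : ∀ a, 1 ≤ a → a < p ^ (k + 1) →
      x * (((p ^ (k + 1)).choose a / p : ℕ) : A) ∈ S := by
    intro a ha ha'
    have := h (Finsupp.single 0 a + Finsupp.single 1 (p ^ (k + 1) - a))
      (by rw [degree_fin_two]; simp; omega)
    change x * cPoly p A (k + 1) _ ∈ S at this
    rw [cPoly] at this
    rw [if_pos (by simp; omega)] at this
    simpa using this
  have hq : p ^ k < p ^ (k + 1) := (Nat.pow_lt_pow_iff_right hp.out.one_lt).mpr (Nat.lt_succ_self k)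
  have h1 := hval 1 le_rfl (lt_of_le_of_lt (Nat.one_le_pow _ _ hp.out.pos) hq)
  have h2 := hval (p ^ k) (Nat.one_le_pow _ _ hp.out.pos) hq
  rw [Nat.choose_one_right, pow_succ, Nat.mul_div_cancel _ hp.out.pos] at h1
  set C := (p ^ (k + 1)).choose (p ^ k) / p
  have hco : Nat.Coprime (p ^ k) C :=
    Nat.Coprime.pow_left k (hp.out.coprime_iff_not_dvd.mpr (not_dvd_choose_div p k))
  obtain ⟨s, t, hst⟩ := Nat.isCoprime_iff_coprime.mpr hco
  have e : x = (s : A) * (x * ((p ^ k : ℕ) : A)) + (t : A) * (x * ((C : ℕ) : A)) := by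
    have h3 : ((s * ((p ^ k : ℕ) : ℤ) + t * ((C : ℕ) : ℤ) : ℤ) : A) = 1 := by rw [hst, Int.cast_one]
    push_cast at h3 ⊢
    linear_combination (-x) * h3
  rw [e]
  exact S.add_mem (S.mul_mem (intCast_mem S s) h1) (S.mul_mem (intCast_mem S t) h2)

/-- Only zero annihilates `cPoly`. -/
lemma eq_zero_of_mul_cPoly {j : ℕ} (hj : 1 ≤ j) {x : A}
    (h : ∀ d : Fin 2 →₀ ℕ, d.degree ≤ p ^ j → x * coeff d (cPoly p A j) = 0) : x = 0 := by
  obtain ⟨k, rfl⟩ : ∃ k, j = k + 1 := ⟨j - 1, by omega⟩
  have hval : ∀ a, 1 ≤ a → a < p ^ (k + 1) →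
      x * (((p ^ (k + 1)).choose a / p : ℕ) : A) = 0 := by
    intro a ha ha'
    have := h (Finsupp.single 0 a + Finsupp.single 1 (p ^ (k + 1) - a))
      (by rw [degree_fin_two]; simp; omega)
    change x * cPoly p A (k + 1) _ = 0 at this
    rw [cPoly, if_pos (by simp; omega)] at this
    simpa using this
  have hq : p ^ k < p ^ (k + 1) := (Nat.pow_lt_pow_iff_right hp.out.one_lt).mpr (Nat.lt_succ_self k)
  have h1 := hval 1 le_rfl (lt_of_le_of_lt (Nat.one_le_pow _ _ hp.out.pos) hq)
  have h2 := hval (p ^ k) (Nat.one_le_pow _ _ hp.out.pos) hq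
  rw [Nat.choose_one_right, pow_succ, Nat.mul_div_cancel _ hp.out.pos] at h1
  set C := (p ^ (k + 1)).choose (p ^ k) / p
  have hco : Nat.Coprime (p ^ k) C :=
    Nat.Coprime.pow_left k (hp.out.coprime_iff_not_dvd.mpr (not_dvd_choose_div p k))
  obtain ⟨s, t, hst⟩ := Nat.isCoprime_iff_coprime.mpr hco
  have h3 : ((s * ((p ^ k : ℕ) : ℤ) + t * ((C : ℕ) : ℤ) : ℤ) : A) = 1 := by rw [hst, Int.cast_one]
  push_cast at h3 h1 h2 ⊢
  linear_combination (-x) * h3 + (s : A) * h1 + (t : A) * h2

/-- The parameters are determined by the law. -/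
theorem law_injective {v v' : ℕ → A} (h : law p v = law p v') :
    ∀ i, 1 ≤ i → v i = v' i := by
  intro i
  induction i using Nat.strong_induction_on with
  | _ i ih =>
    intro hi
    refine sub_eq_zero.mp (eq_zero_of_mul_cPoly p hi fun d hd => ?_)
    have e := law_sub_lowDegree p A v v' i hi (fun l a b => ih l b a) d
      ((deg_eq_degree d).trans_le hd)
    rw [h, sub_self] at e
    linear_combination e

/-- Scaled parameters `c ^ (p ^ i - 1) * v i`. -/
def scaleV (c : A) (v : ℕ → A) (i : ℕ) : A := c ^ (p ^ i - 1) * v i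

omit hp in
lemma map_scaleV {B : Type v} [CommRing B] (g : A →+* B) (c : A) (v : ℕ → A) (i : ℕ) :
    g (scaleV p c v i) = scaleV p (g c) (fun j => g (v j)) i := by
  simp [scaleV]

lemma L_scaleV (c : A) (v : ℕ → A) :
    ∀ K, L p (scaleV p c v) K = c ^ (p ^ K - 1) * L p v K := by
  intro K
  induction K using Nat.strong_induction_on with
  | _ K ih =>
    rcases K with _ | K
    · simp [L_zero]
    · rw [L_succ, L_succ, Finset.mul_sum]
      refine Finset.sum_congr rfl fun i hi => ?_
      rw [Finset.mem_range] at hi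
      rw [ih (K - i) (by omega), scaleV, mul_pow, ← pow_mul]
      have he : (p ^ (i + 1) - 1) * p ^ (K - i) + (p ^ (K - i) - 1) = p ^ (K + 1) - 1 := by
        have h1 := Nat.one_le_pow (K - i) p hp.out.pos
        have h2 : p ^ (K + 1) = p ^ (i + 1) * p ^ (K - i) := by
          rw [← pow_add]; congr 1; omega
        have h3 : p ^ (K - i) ≤ p ^ (i + 1) * p ^ (K - i) :=
          Nat.le_mul_of_pos_left _ (pow_pos hp.out.pos _)
        rw [h2, Nat.sub_mul, one_mul]
        omega
      rw [← he, pow_add]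
      ring

/-- Scaling of the variable is a homomorphism `law (scaleV c v) → law v`. -/
theorem isHom_scale (c : A) (v : ℕ → A) :
    IsHom (law p (scaleV p c v)) (law p v) (PowerSeries.C c * PowerSeries.X) := by
  set V : ℕ → MvPolynomial (ℕ ⊕ Unit) ℤ := fun i => MvPolynomial.X (Sum.inl i) with hV
  set γ : MvPolynomial (ℕ ⊕ Unit) ℤ := MvPolynomial.X (Sum.inr ()) with hγ
  have huniv : IsHom (law p (scaleV p γ V)) (law p V) (PowerSeries.C γ * PowerSeries.X) := by
    set ι : MvPolynomial (ℕ ⊕ Unit) ℤ →+* MvPolynomial (ℕ ⊕ Unit) ℚ :=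
      MvPolynomial.map (Int.castRingHom ℚ)
    refine IsHom.of_map ι (MvPolynomial.map_injective _ (RingHom.injective_int _)) (by simp) ?_
    rw [map_law, map_law, map_mul, PowerSeries.map_C, PowerSeries.map_X]
    simp only [map_scaleV p ι]
    set K := MvPolynomial (ℕ ⊕ Unit) ℚ
    set a : K := ι γ
    set w : ℕ → K := fun i => ι (V i)
    have hpK : IsUnit (p : K) := by
      rw [← map_natCast (MvPolynomial.C : ℚ →+* K)]
      exact (Nat.cast_ne_zero.mpr hp.out.ne_zero).isUnit.map _
    have hF := hasLog_law p (scaleV p a w) hpK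
    have hG := hasLog_law p w hpK
    set lin : PowerSeries K := PowerSeries.C a * PowerSeries.X with hlin
    have hlin0 : PowerSeries.constantCoeff lin = 0 := by simp [hlin]
    have hlins : PowerSeries.HasSubst lin := PowerSeries.HasSubst.of_constantCoeff_zero' hlin0
    have hcomp : (pLog p w).subst lin = PowerSeries.C a * pLog p (scaleV p a w) := by
      rw [hlin, ← PowerSeries.smul_eq_C_mul, ← PowerSeries.rescale_eq_subst]
      refine PowerSeries.ext fun m => ?_
      rw [PowerSeries.coeff_rescale, PowerSeries.coeff_C_mul]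
      by_cases hJ : ∃ J, m = p ^ J
      · obtain ⟨J, rfl⟩ := hJ
        rw [coeff_pLog_pow, coeff_pLog_pow, L_scaleV]
        obtain ⟨r, hr⟩ : ∃ r, p ^ J = r + 1 :=
          ⟨p ^ J - 1, by have := pow_pos hp.out.pos J; omega⟩
        rw [hr, Nat.add_sub_cancel, pow_succ]
        ring
      · rw [not_exists] at hJ
        rw [coeff_pLog_other _ hJ, coeff_pLog_other _ hJ, mul_zero, mul_zero]
    have hev : ∀ {x : MvPowerSeries (Fin 2) K}, constantCoeff x = 0 →
        (pLog p w).subst (lin.subst x) = a • (pLog p (scaleV p a w)).subst x := fun hx => by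
      rw [← PowerSeries.subst_comp_subst_apply hlins (PowerSeries.HasSubst.of_constantCoeff_zero hx),
        hcomp, ← PowerSeries.smul_eq_C_mul,
        PowerSeries.subst_smul (PowerSeries.HasSubst.of_constantCoeff_zero hx)]
    have hc : ∀ {x : MvPowerSeries (Fin 2) K}, constantCoeff x = 0 →
        constantCoeff (lin.subst x) = 0 := fun hx => constantCoeff_subst_zero _ hlin0 hx
    refine ⟨hlin0, subst_injective (constantCoeff_pLog (p := p) w) (isUnit_coeff_one_pLog (p := p) w)
      (hc (law p (scaleV p a w)).zero_constantCoeff)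
      (constantCoeff_fadd _ (hc (constantCoeff_X _)) (hc (constantCoeff_X _))) ?_⟩
    rw [hev (law p (scaleV p a w)).zero_constantCoeff,
      hG.subst_fadd (hc (constantCoeff_X _)) (hc (constantCoeff_X _)), hev (constantCoeff_X _),
      hev (constantCoeff_X _), hF, smul_add]
  set g : MvPolynomial (ℕ ⊕ Unit) ℤ →+* A :=
    (MvPolynomial.aeval (Sum.elim v fun _ => c) : MvPolynomial (ℕ ⊕ Unit) ℤ →ₐ[ℤ] A).toRingHom
    with hg
  have e := huniv.map' g
  have h1 : (fun i => g (V i)) = v := funext fun i => by simp [hg, hV]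
  have h2 : g γ = c := by simp [hg, hγ]
  rw [map_law, map_law, map_mul, PowerSeries.map_C, PowerSeries.map_X, h2, h1] at e
  simp only [map_scaleV p g, h2, h1] at e
  exact e

end LawFacts

end Vale.Agent.P217
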