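import Vale.Agent.P217.Targets
import Mathlib.RingTheory.WittVector.Complete
import Mathlib.RingTheory.AdicCompletion.RingHom

/-!
# P217, module Action: `W(k)[[u]]` is complete for `m = (p, u)`; semilinear endomorphisms
-/

open MvPowerSeries Finset
open scoped Classical

noncomputable section

namespace Vale.Agent.P217

section Adic

variable (p : ℕ) [hp : Fact p.Prime] (n : ℕ) (k : Type*) [Field k] [CharP k p]

omit [CharP k p] in
lemma p_mem_mIdeal : (p : LT p n k) ∈ mIdeal p n k := Ideal.subset_span (Set.mem_insert _ _)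

omit [CharP k p] in
lemma X_mem_mIdeal (i : Fin (n - 1)) : (MvPowerSeries.X i : LT p n k) ∈ mIdeal p n k :=
  Ideal.subset_span (Set.mem_insert_of_mem _ ⟨i, rfl⟩)

omit [CharP k p] in
lemma dvd_coeff_of_mem_mIdeal {f : LT p n k} (hf : f ∈ mIdeal p n k) :
    (p : WittVector p k) ∣ constantCoeff f := by
  refine Submodule.span_induction (fun x hx => ?_) (by simp) (fun x y _ _ a b => ?_)
    (fun a x _ hx => ?_) hf
  · rcases hx with rfl | ⟨i, rfl⟩ <;> simp
  · rw [map_add]; exact dvd_add a b
  · rw [smul_eq_mul, map_mul]; exact hx.mul_left _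

omit [CharP k p] in
lemma dvd_coeff_of_mem_pow : ∀ {s : ℕ} {f : LT p n k}, f ∈ mIdeal p n k ^ s →
    ∀ d, (p : WittVector p k) ^ (s - d.degree) ∣ coeff d f := by
  intro s
  induction s with
  | zero => intro f _ d; simp
  | succ s ih =>
    intro f hf
    rw [pow_succ] at hf
    refine Submodule.mul_induction_on hf (fun a ha b hb d => ?_) (fun a b h1 h2 d => ?_)
    · rw [coeff_mul]
      refine Finset.dvd_sum fun x hx => ?_
      rw [Finset.HasAntidiagonal.mem_antidiagonal] at hx
      have hdeg : x.1.degree + x.2.degree = d.degree := by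
        rw [← hx, map_add]
      by_cases h0 : x.2 = 0
      · have h1 : x.2.degree = 0 := by rw [h0]; simp
        rw [show s + 1 - d.degree = if s < x.1.degree then 0 else s - x.1.degree + 1 by
          split_ifs <;> omega]
        split_ifs
        · rw [pow_zero]; exact one_dvd _
        · rw [pow_succ]
          refine mul_dvd_mul (ih ha _) ?_
          rw [h0, coeff_zero_eq_constantCoeff_apply]
          exact dvd_coeff_of_mem_mIdeal p n k hb
      · have h1 : x.2.degree ≠ 0 := fun h => h0 ((Finsupp.degree_eq_zero_iff _).mp h)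
        exact (pow_dvd_pow _ (by omega)).trans ((ih ha x.1).mul_right _)
    · rw [map_add]; exact dvd_add (h1 d) (h2 d)

omit [CharP k p] in
lemma mem_pow_of_dvd_coeff : ∀ {s : ℕ} {f : LT p n k},
    (∀ d, (p : WittVector p k) ^ (s - d.degree) ∣ coeff d f) → f ∈ mIdeal p n k ^ s := by
  intro s
  induction s with
  | zero => intro f _; simp
  | succ s ih =>
    intro f hf
    let first : Fin (n - 1) → (Fin (n - 1) →₀ ℕ) → Prop := fun i d => ∀ j, j < i → d j = 0
    let g : Fin (n - 1) → LT p n k := fun i d =>
      if first i d then coeff (d + Finsupp.single i 1) f else 0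
    have hg : ∀ i, g i ∈ mIdeal p n k ^ s := fun i => ih fun d => by
      change _ ∣ g i d
      simp only [g]
      split_ifs
      · have h := hf (d + Finsupp.single i 1)
        rw [map_add, Finsupp.degree_single, Nat.add_sub_add_right] at h
        exact h
      · exact dvd_zero _
    have hdec : f = MvPowerSeries.C (constantCoeff f) + ∑ i, MvPowerSeries.X i * g i := by
      refine MvPowerSeries.ext fun d => ?_
      rw [map_add, map_sum]
      by_cases h0 : d = 0
      · subst h0
        rw [Finset.sum_eq_zero fun i _ => ?_, add_zero, coeff_zero_C]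
        · rfl
        · rw [coeff_zero_eq_constantCoeff_apply, map_mul, constantCoeff_X, zero_mul]
      · have hne : d.support.Nonempty := Finsupp.support_nonempty_iff.mpr h0
        set i₀ := d.support.min' hne
        have hi₀ : d i₀ ≠ 0 := Finsupp.mem_support_iff.mp (d.support.min'_mem hne)
        have hterm : ∀ i, coeff d (MvPowerSeries.X i * g i) =
            if i = i₀ then coeff d f else 0 := by
          intro i
          rw [X_def, coeff_monomial_mul, one_mul]
          have hmin : ∀ j, j < i₀ → d j = 0 := fun j hj => by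
            by_contra hc
            exact not_le.mpr hj (d.support.min'_le j (Finsupp.mem_support_iff.mpr hc))
          by_cases hd : Finsupp.single i 1 ≤ d
          · rw [if_pos hd]
            have hdi : d i ≠ 0 := by
              have := hd i
              rw [Finsupp.single_eq_same] at this
              omega
            change g i (d - Finsupp.single i 1) = _
            simp only [g]
            rw [tsub_add_cancel_of_le hd]
            refine if_congr ⟨fun h => ?_, fun h j hj => ?_⟩ rfl rfl
            · refine le_antisymm ?_ (d.support.min'_le i (Finsupp.mem_support_iff.mpr hdi))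
              by_contra hc
              have := h i₀ (not_le.mp hc)
              rw [Finsupp.tsub_apply, Finsupp.single_eq_of_ne (not_le.mp hc).ne] at this
              exact hi₀ (by simpa using this)
            · rw [Finsupp.tsub_apply, hmin j (h ▸ hj), Nat.zero_sub]
          · rw [if_neg hd, if_neg]
            rintro rfl
            exact hd (Finsupp.single_le_iff.mpr (Nat.one_le_iff_ne_zero.mpr hi₀))
        rw [coeff_C, if_neg h0, zero_add, Finset.sum_congr rfl fun i _ => hterm i]
        simp
    rw [hdec]
    refine Ideal.add_mem _ ?_ (Ideal.sum_mem _ fun i _ => ?_)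
    · obtain ⟨a, ha⟩ := hf 0
      rw [map_zero, Nat.sub_zero, coeff_zero_eq_constantCoeff_apply] at ha
      rw [ha, map_mul, map_pow, map_natCast]
      exact Ideal.mul_mem_right _ _ (Ideal.pow_mem_pow (p_mem_mIdeal p n k) _)
    · rw [pow_succ']
      exact Ideal.mul_mem_mul (X_mem_mIdeal p n k i) (hg i)

omit [CharP k p] in
lemma mem_mIdeal_pow_iff {s : ℕ} {f : LT p n k} : f ∈ mIdeal p n k ^ s ↔
    ∀ d, (p : WittVector p k) ^ (s - d.degree) ∣ coeff d f :=
  ⟨fun h => dvd_coeff_of_mem_pow p n k h, fun h => mem_pow_of_dvd_coeff p n k h⟩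

variable [PerfectRing k p]

lemma mem_mIdeal_iff (f : LT p n k) : f ∈ mIdeal p n k ↔ res p n k f = 0 := by
  rw [res, RingHom.comp_apply, WittVector.constantCoeff_apply,
    ← WittVector.mem_span_p_iff_coeff_zero_eq_zero, Ideal.mem_span_singleton]
  refine ⟨fun h => dvd_coeff_of_mem_mIdeal p n k h, fun h => ?_⟩
  rw [← pow_one (mIdeal p n k)]
  refine mem_pow_of_dvd_coeff p n k fun d => ?_
  rcases Nat.eq_zero_or_pos d.degree with h0 | h0
  · rw [(Finsupp.degree_eq_zero_iff d).mp h0, map_zero, Nat.sub_zero, pow_one,
      coeff_zero_eq_constantCoeff_apply]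
    exact h
  · rw [Nat.sub_eq_zero_of_le h0, pow_zero]
    exact one_dvd _

omit [CharP k p] [PerfectRing k p] in
lemma smul_top_pow_eq (s : ℕ) :
    (mIdeal p n k ^ s • ⊤ : Submodule (LT p n k) (LT p n k)) = (mIdeal p n k ^ s : Ideal _) := by
  rw [smul_eq_mul, Ideal.mul_top]

omit [CharP k p] [PerfectRing k p] in
lemma smul_top_pow_eq_witt (s : ℕ) :
    (Ideal.span {(p : WittVector p k)} ^ s • ⊤ : Submodule (WittVector p k) (WittVector p k)) =
      Ideal.span {(p : WittVector p k) ^ s} := by
  rw [smul_eq_mul, Ideal.mul_top, Ideal.span_singleton_pow]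

/-- `W(k)[[u]]` is complete for `(p, u)`. -/
instance isAdicComplete_mIdeal : IsAdicComplete (mIdeal p n k) (LT p n k) where
  haus' f hf := by
    refine MvPowerSeries.ext fun d => ?_
    rw [map_zero]
    refine IsHausdorff.haus (inferInstance : IsHausdorff (Ideal.span {(p : WittVector p k)}) _) _
      fun s => ?_
    rw [SModEq.zero, smul_top_pow_eq_witt, Ideal.mem_span_singleton]
    have h := hf (s + d.degree)
    rw [SModEq.zero, smul_top_pow_eq] at h
    have := dvd_coeff_of_mem_pow p n k h d
    rwa [Nat.add_sub_cancel] at this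
  prec' f hf := by
    have hdiff : ∀ {a b}, a ≤ b → f a - f b ∈ mIdeal p n k ^ a := fun h => by
      have := hf h
      rwa [SModEq.sub_mem, smul_top_pow_eq] at this
    have hex : ∀ d : Fin (n - 1) →₀ ℕ, ∃ L : WittVector p k, ∀ t,
        coeff d (f (t + d.degree)) ≡ L
          [SMOD (Ideal.span {(p : WittVector p k)} ^ t • ⊤ :
            Submodule (WittVector p k) (WittVector p k))] := by
      intro d
      refine IsPrecomplete.prec (inferInstance : IsPrecomplete _ (WittVector p k)) fun {a b} hab => ?_
      rw [SModEq.sub_mem, smul_top_pow_eq_witt, Ideal.mem_span_singleton, ← map_sub]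
      have := dvd_coeff_of_mem_pow p n k (hdiff (show a + d.degree ≤ b + d.degree by omega)) d
      rwa [Nat.add_sub_cancel] at this
    choose L hL using hex
    obtain ⟨F, hF⟩ : ∃ F : LT p n k, ∀ d, coeff d F = L d := ⟨fun d => L d, fun _ => rfl⟩
    refine ⟨F, fun s => ?_⟩
    rw [SModEq.sub_mem, smul_top_pow_eq]
    refine mem_pow_of_dvd_coeff p n k fun d => ?_
    rcases le_total s d.degree with h | h
    · rw [Nat.sub_eq_zero_of_le h, pow_zero]; exact one_dvd _
    · have := hL d (s - d.degree)
      rw [Nat.sub_add_cancel h, SModEq.sub_mem, smul_top_pow_eq_witt,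
        Ideal.mem_span_singleton] at this
      rwa [map_sub, hF]

/-- Vanishing from membership in all powers. -/
lemma eq_of_forall_sub_mem {a b : LT p n k} (h : ∀ s, a - b ∈ mIdeal p n k ^ s) : a = b :=
  sub_eq_zero.mp (IsHausdorff.haus (inferInstance : IsHausdorff (mIdeal p n k) (LT p n k)) _
    fun s => by rw [SModEq.zero, smul_top_pow_eq]; exact h s)

end Adic

lemma constantCoeff_subst_natural {W Q Q' : Type*} [CommRing W] [CommRing Q] [CommRing Q']
    {σ : Type*} (f : W →+* Q) (g : Q →+* Q') (c : σ → MvPowerSeries (Fin 0) Q) (hc : HasSubst c)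
    (x : MvPowerSeries σ W) :
    g (constantCoeff (subst c (MvPowerSeries.map f x))) =
      constantCoeff (subst (fun i => MvPowerSeries.map g (c i)) (MvPowerSeries.map (g.comp f) x)) := by
  rw [← constantCoeff_map, map_subst hc]
  congr 2

section Endo

variable (p : ℕ) [hp : Fact p.Prime] (n : ℕ) (k : Type) [Field k] [CharP k p] [PerfectRing k p]
  (σ : WittVector p k →+* WittVector p k) (u : Fin (n - 1) → LT p n k)
  (hu : ∀ i, u i ∈ mIdeal p n k)

/-- Constants of the quotient by a power of the maximal ideal, as series in no variables. -/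
def qConst (s : ℕ) : Fin (n - 1) → MvPowerSeries (Fin 0) (LT p n k ⧸ mIdeal p n k ^ s) :=
  fun i => MvPowerSeries.C (Ideal.Quotient.mk _ (u i))

include hu in
omit [CharP k p] [PerfectRing k p] in
lemma hasSubst_qConst (s : ℕ) : HasSubst (qConst p n k u s) :=
  hasSubst_of_constantCoeff_nilpotent fun i => by
    refine ⟨s, ?_⟩
    rw [qConst, constantCoeff_C, ← map_pow, Ideal.Quotient.eq_zero_iff_mem]
    exact Ideal.pow_mem_pow (hu i) s

/-- The endomorphism modulo `m^s`. -/
def endoMod (s : ℕ) : LT p n k →+* LT p n k ⧸ mIdeal p n k ^ s :=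
  (MvPowerSeries.constantCoeff).comp <|
    ((substAlgHom (hasSubst_qConst p n k u hu s)).toRingHom).comp <|
      MvPowerSeries.map ((Ideal.Quotient.mk (mIdeal p n k ^ s)).comp
        ((MvPowerSeries.C : WittVector p k →+* LT p n k).comp σ))

omit [CharP k p] [PerfectRing k p] in
lemma endoMod_C (s : ℕ) (a : WittVector p k) :
    endoMod p n k σ u hu s (MvPowerSeries.C a) =
      Ideal.Quotient.mk _ (MvPowerSeries.C (σ a)) := by
  simp [endoMod]

omit [CharP k p] [PerfectRing k p] in
lemma endoMod_X (s : ℕ) (i : Fin (n - 1)) :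
    endoMod p n k σ u hu s (MvPowerSeries.X i) = Ideal.Quotient.mk _ (u i) := by
  simp [endoMod, subst_X (hasSubst_qConst p n k u hu s), qConst]

omit [CharP k p] [PerfectRing k p] in
lemma endoMod_compat {a b : ℕ} (hab : a ≤ b) :
    (Ideal.Quotient.factorPow (mIdeal p n k) hab).comp (endoMod p n k σ u hu b) =
      endoMod p n k σ u hu a := by
  refine RingHom.ext fun f => ?_
  have hfac : ∀ x : LT p n k, Ideal.Quotient.factorPow (mIdeal p n k) hab (Ideal.Quotient.mk _ x) =
      Ideal.Quotient.mk _ x := fun x => Ideal.Quotient.factor_mk _ x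
  simp only [endoMod, RingHom.comp_apply, AlgHom.toRingHom_eq_coe, RingHom.coe_coe,
    substAlgHom_apply]
  refine (constantCoeff_subst_natural _ (Ideal.Quotient.factorPow (mIdeal p n k) hab) _
    (hasSubst_qConst p n k u hu b) f).trans ?_
  have e1 : (Ideal.Quotient.factorPow (mIdeal p n k) hab).comp
      ((Ideal.Quotient.mk (mIdeal p n k ^ b)).comp
        ((MvPowerSeries.C : WittVector p k →+* LT p n k).comp σ)) =
      (Ideal.Quotient.mk (mIdeal p n k ^ a)).comp
        ((MvPowerSeries.C : WittVector p k →+* LT p n k).comp σ) :=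
    RingHom.ext fun x => hfac _
  have e2 : (fun i => MvPowerSeries.map (Ideal.Quotient.factorPow (mIdeal p n k) hab)
      (qConst p n k u b i)) = qConst p n k u a :=
    funext fun i => by rw [qConst, qConst, map_C, hfac]
  rw [e1, e2]

/-- The semilinear endomorphism with given values on the variables. -/
def endo : LT p n k →+* LT p n k :=
  IsAdicComplete.liftRingHom (mIdeal p n k) (endoMod p n k σ u hu)
    fun hab => endoMod_compat p n k σ u hu hab

lemma endo_C (a : WittVector p k) :
    endo p n k σ u hu (MvPowerSeries.C a) = MvPowerSeries.C (σ a) :=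
  eq_of_forall_sub_mem p n k fun s => by
    rw [← Ideal.Quotient.eq, endo, IsAdicComplete.mk_liftRingHom, endoMod_C]

lemma endo_X (i : Fin (n - 1)) : endo p n k σ u hu (MvPowerSeries.X i) = u i :=
  eq_of_forall_sub_mem p n k fun s => by
    rw [← Ideal.Quotient.eq, endo, IsAdicComplete.mk_liftRingHom, endoMod_X]

end Endo

end Vale.Agent.P217
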