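import Vale.Agent.P217.Action.Residual
import Vale.Agent.P217.Action.Complete
import Vale.Agent.P217.ActionUnique.Unique

/-!
# P217, module Action: existence of the action

For `g` in the automorphism group of the special fibre: the digits of `g⁻¹` transport the universal law
to a law with parameters `≡ δ_n` modulo `m`; a fixed point of a contraction then brings the parameters
to the shape `vTuple n u'`.
-/

open MvPowerSeries Finset
open scoped Classical

noncomputable section

namespace Vale.Agent.P217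

/-! ### First order expansion of polynomial values -/

section Taylor

open TrivSqZeroExt

lemma aeval_sub_dual {R : Type*} [CommRing R] {σ : Type*} (I : Ideal R) {s : ℕ}
    {a a' b : σ → R} (ha : ∀ x, a x - b x ∈ I) (ha' : ∀ x, a' x - b x ∈ I)
    (h : ∀ x, a x - a' x ∈ I ^ s) (P : MvPolynomial σ ℤ) :
    (MvPolynomial.eval₂Hom (Int.castRingHom (DualNumber R))
          (fun x => inl (b x) + inr (a x - a' x)) P).fst =
        MvPolynomial.eval₂Hom (Int.castRingHom R) b P ∧
      MvPolynomial.eval₂Hom (Int.castRingHom R) a P - MvPolynomial.eval₂Hom (Int.castRingHom R) b P ∈ I ∧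
      (MvPolynomial.eval₂Hom (Int.castRingHom (DualNumber R))
          (fun x => inl (b x) + inr (a x - a' x)) P).snd ∈ I ^ s ∧
      MvPolynomial.eval₂Hom (Int.castRingHom R) a P - MvPolynomial.eval₂Hom (Int.castRingHom R) a' P -
        (MvPolynomial.eval₂Hom (Int.castRingHom (DualNumber R))
          (fun x => inl (b x) + inr (a x - a' x)) P).snd ∈
          I ^ (s + 1) := by
  induction P using MvPolynomial.induction_on with
  | C c => simp
  | add P Q hP hQ =>
      obtain ⟨p1, p2, p3, p4⟩ := hP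
      obtain ⟨q1, q2, q3, q4⟩ := hQ
      simp only [map_add, fst_add, snd_add]
      refine ⟨by rw [p1, q1], ?_, Ideal.add_mem _ p3 q3, ?_⟩
      · rw [add_sub_add_comm]
        exact Ideal.add_mem _ p2 q2
      · have := Ideal.add_mem _ p4 q4
        ring_nf at this ⊢
        exact this
  | mul_X P x hP =>
      obtain ⟨p1, p2, p3, p4⟩ := hP
      simp only [map_mul, MvPolynomial.eval₂Hom_X', fst_mul, DualNumber.snd_mul, fst_add, snd_add,
        fst_inl, fst_inr, snd_inl, snd_inr, add_zero, zero_add, p1]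
      set D := (MvPolynomial.eval₂Hom (Int.castRingHom (DualNumber R))
        (fun x => inl (b x) + inr (a x - a' x)) P).snd
      set A := MvPolynomial.eval₂Hom (Int.castRingHom R) a P
      set A' := MvPolynomial.eval₂Hom (Int.castRingHom R) a' P
      set B := MvPolynomial.eval₂Hom (Int.castRingHom R) b P
      refine ⟨trivial, ?_, Ideal.add_mem _ (Ideal.mul_mem_left _ _ (h x))
        (Ideal.mul_mem_right _ _ p3), ?_⟩
      · rw [show A * a x - B * b x = (A - B) * a x + B * (a x - b x) by ring]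
        exact Ideal.add_mem _ (Ideal.mul_mem_right _ _ p2) (Ideal.mul_mem_left _ _ (ha x))
      · rw [show A * a x - A' * a' x - (B * (a x - a' x) + D * b x) =
          (A - B) * (a x - a' x) + (A - A' - D) * a' x + (a' x - b x) * D by ring, pow_succ']
        refine Ideal.add_mem _ (Ideal.add_mem _ (Ideal.mul_mem_mul p2 (h x)) ?_)
          (Ideal.mul_mem_mul (ha' x) p3)
        rw [← pow_succ']
        exact Ideal.mul_mem_right _ _ p4

end Taylor

/-! ### The fixed point -/

section FixedPoint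

lemma transV_eq_eval₂ (p : ℕ) [Fact p.Prime] {A : Type*} [CommRing A] (v τ : ℕ → A) (K : ℕ) :
    transV p v τ K =
      MvPolynomial.eval₂Hom (Int.castRingHom A) (Sum.elim v τ) (transPoly p K) := by
  rw [transV_eq_aeval, MvPolynomial.aeval_def, algebraMap_int_eq]
  rfl

variable (p : ℕ) [hp : Fact p.Prime] {n : ℕ} {k : Type} [Field k] [CharP k p] [PerfectRing k p]

omit [CharP k p] [PerfectRing k p] in
lemma transV_contract (hn : 1 ≤ n) {v : ℕ → LT p n k} (hv : ∀ i, v i - vHonda n i ∈ mIdeal p n k)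
    {s : ℕ} {τ τ' : ℕ → LT p n k} (hτ : ∀ i, τ i ∈ mIdeal p n k)
    (hτ' : ∀ i, τ' i ∈ mIdeal p n k) (h : ∀ i, τ i - τ' i ∈ mIdeal p n k ^ s) (j : ℕ) :
    transV p v τ (n + j) - transV p v τ' (n + j) + (τ j - τ' j) ∈ mIdeal p n k ^ (s + 1) ∧
      ∀ K, 1 ≤ K → transV p v τ K - vHonda n K ∈ mIdeal p n k := by
  have ha : ∀ σ' : ℕ → LT p n k, (∀ i, σ' i ∈ mIdeal p n k) →
      ∀ x : ℕ ⊕ ℕ, Sum.elim v σ' x - Sum.elim (vHonda n) 0 x ∈ mIdeal p n k := by
    intro σ' hσ' x
    rcases x with i | i <;> simp [hv, hσ']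
  have hd : ∀ x : ℕ ⊕ ℕ, Sum.elim v τ x - Sum.elim v τ' x ∈ mIdeal p n k ^ s := by
    intro x
    rcases x with i | i <;> simp [h]
  have hfun : (fun x : ℕ ⊕ ℕ => (TrivSqZeroExt.inl (Sum.elim (vHonda n) 0 x) +
      TrivSqZeroExt.inr (Sum.elim v τ x - Sum.elim v τ' x) : DualNumber (LT p n k))) =
        Sum.elim (dualBase n) (dualDir fun i => τ i - τ' i) := by
    funext x
    rcases x with i | i <;> simp [dualBase, dualDir]
  have key := fun K => aeval_sub_dual (mIdeal p n k) (ha τ hτ) (ha τ' hτ') hd (transPoly p K)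
  simp only [hfun, ← transV_eq_eval₂] at key
  refine ⟨?_, fun K hK => ?_⟩
  · obtain ⟨-, -, -, k4⟩ := key (n + j)
    obtain ⟨-, a, b, c, hs2⟩ := transV_linear p hn (fun i => τ i - τ' i) (K := n + j) (by omega)
    rw [hs2, if_pos (Nat.le_add_right n j), Nat.add_sub_cancel_left] at k4
    have hsmall : (p : LT p n k) *
        (a * (τ (n + j) - τ' (n + j)) + b * (τ n - τ' n) + c * (τ 0 - τ' 0)) ∈
          mIdeal p n k ^ (s + 1) := by
      rw [pow_succ']
      exact Ideal.mul_mem_mul (p_mem_mIdeal p n k) (Ideal.add_mem _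
        (Ideal.add_mem _ (Ideal.mul_mem_left _ _ (h _)) (Ideal.mul_mem_left _ _ (h _)))
        (Ideal.mul_mem_left _ _ (h _)))
    have := Ideal.add_mem _ k4 hsmall
    ring_nf at this ⊢
    exact this
  · obtain ⟨k1, k2, -, -⟩ := key K
    obtain ⟨hf, -⟩ := transV_linear p hn (fun i => τ i - τ' i) hK
    have hb : transV p (vHonda n) 0 K = vHonda n (A := LT p n k) K := by
      rw [← hf, ← k1]
    rwa [hb] at k2

/-- Parameters `≡ δ_n` can be brought to zero above `n`. -/
theorem exists_fixed_digits (hn : 1 ≤ n) {v : ℕ → LT p n k}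
    (hv : ∀ i, v i - vHonda n i ∈ mIdeal p n k) :
    ∃ τ : ℕ → LT p n k, (∀ i, τ i ∈ mIdeal p n k) ∧
      (∀ K, n ≤ K → transV p v τ K = vHonda n K) ∧
      ∀ K, 1 ≤ K → transV p v τ K - vHonda n K ∈ mIdeal p n k := by
  set Φ : (ℕ → LT p n k) → ℕ → LT p n k :=
    fun τ j => τ j + (transV p v τ (n + j) - vHonda n (n + j)) with hΦ
  have hmem : ∀ τ : ℕ → LT p n k, (∀ i, τ i ∈ mIdeal p n k) →
      ∀ K, 1 ≤ K → transV p v τ K - vHonda n K ∈ mIdeal p n k := fun τ hτ K hK =>
    (transV_contract p hn hv (s := 1) hτ hτ (fun i => by simp) 0).2 K hK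
  have hΦm : ∀ τ : ℕ → LT p n k, (∀ i, τ i ∈ mIdeal p n k) → ∀ j, Φ τ j ∈ mIdeal p n k :=
    fun τ hτ j => Ideal.add_mem _ (hτ j) (hmem τ hτ _ (by omega))
  have hcon : ∀ s, ∀ τ τ' : ℕ → LT p n k, (∀ i, τ i ∈ mIdeal p n k) →
      (∀ i, τ' i ∈ mIdeal p n k) → (∀ i, τ i - τ' i ∈ mIdeal p n k ^ s) →
      ∀ j, Φ τ j - Φ τ' j ∈ mIdeal p n k ^ (s + 1) := by
    intro s τ τ' hτ hτ' h j
    have := (transV_contract p hn hv hτ hτ' h j).1
    rw [hΦ]
    ring_nf at this ⊢
    exact this
  obtain ⟨S, hS0, hS1⟩ : ∃ S : ℕ → ℕ → LT p n k, S 0 = (fun _ => 0) ∧ ∀ s, S (s + 1) = Φ (S s) :=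
    ⟨fun s => Φ^[s] fun _ => 0, rfl, fun s => Function.iterate_succ_apply' Φ s _⟩
  have hSm : ∀ s i, S s i ∈ mIdeal p n k := by
    intro s
    induction s with
    | zero => intro i; rw [hS0]; exact Ideal.zero_mem _
    | succ s ih => intro i; rw [hS1]; exact hΦm _ ih i
  have hstep : ∀ s j, S (s + 1) j - S s j ∈ mIdeal p n k ^ (s + 1) := by
    intro s
    induction s with
    | zero => intro j; rw [zero_add, pow_one]; exact Ideal.sub_mem _ (hSm _ j) (hSm _ j)
    | succ s ih =>
        intro j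
        rw [hS1 (s + 1)]
        conv => arg 2; arg 2; rw [hS1 s]
        exact hcon (s + 1) _ _ (hSm _) (hSm _) ih j
  have hcauchy : ∀ j {a b : ℕ}, a ≤ b → S a j - S b j ∈ mIdeal p n k ^ a := by
    intro j a b hab
    induction b, hab using Nat.le_induction with
    | base => simp
    | succ b hb ih =>
        rw [show S a j - S (b + 1) j = (S a j - S b j) - (S (b + 1) j - S b j) by ring]
        exact Ideal.sub_mem _ ih (Ideal.pow_le_pow_right (by omega) (hstep b j))
  have hex : ∀ j, ∃ l : LT p n k, ∀ s, S s j - l ∈ mIdeal p n k ^ s := by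
    intro j
    obtain ⟨l, hl⟩ := IsPrecomplete.prec
      (inferInstance : IsPrecomplete (mIdeal p n k) (LT p n k)) (f := fun s => S s j)
      (fun {a b} hab => by rw [SModEq.sub_mem, smul_top_pow_eq]; exact hcauchy j hab)
    refine ⟨l, fun s => ?_⟩
    have := hl s
    rwa [SModEq.sub_mem, smul_top_pow_eq] at this
  choose τ hτ using hex
  have hτm : ∀ i, τ i ∈ mIdeal p n k := fun i => by
    have := hτ i 1
    rw [pow_one] at this
    have := Ideal.sub_mem _ (hSm 1 i) this
    rwa [sub_sub_cancel] at this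
  have hfix : ∀ j, Φ τ j = τ j := fun j => by
    refine eq_of_forall_sub_mem p n k fun s => ?_
    have h1 := hcon (s + 1) τ (S (s + 1)) hτm (hSm _)
      (fun i => by rw [← neg_sub]; exact Submodule.neg_mem _ (hτ i (s + 1))) j
    rw [show Φ (S (s + 1)) = S (s + 1 + 1) from (hS1 (s + 1)).symm] at h1
    have h2 := hτ j (s + 1 + 1)
    have := Ideal.add_mem _ h1 h2
    rw [sub_add_sub_cancel] at this
    exact Ideal.pow_le_pow_right (by omega) this
  refine ⟨τ, hτm, fun K hK => ?_, hmem τ hτm⟩
  obtain ⟨j, rfl⟩ := Nat.exists_eq_add_of_le hK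
  have := hfix j
  rw [hΦ] at this
  exact sub_eq_zero.mp (add_eq_left.mp this)

end FixedPoint

/-! ### Existence -/

section Exists

variable {p : ℕ} [hp : Fact p.Prime] {n : ℕ} {k : Type} [Field k] [CharP k p]

omit hp [CharP k p] in
lemma transSer_honda_zero (τ : ℕ → k) (h : ∀ i, τ i = 0) :
    transSer p (vHonda n) τ = PowerSeries.X := by
  rw [transSer, digitSer_zero p _ τ (fun i _ => h i), h, add_zero, map_one, one_mul,
    PowerSeries.X_subst]

/-- An automorphism of the special fibre is a transporting series, and it fixes the parameters. -/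
lemma exists_residual_digits (hn : 1 ≤ n) {g : PowerSeries k} (hg : IsAut p n k g) :
    ∃ τ : ℕ → k, transSer p (vHonda n) τ = g ∧ ∀ i, 1 ≤ i → transV p (vHonda n) τ i = vHonda n i := by
  set a := PowerSeries.coeff 1 g with ha
  have ha0 : a ≠ 0 := hg.2.ne_zero
  have haq : a ^ p ^ n = a := coeff_endo_honda p hn hg.1 1
  have hsc : IsEndo (honda p n k) (PowerSeries.C a⁻¹ * PowerSeries.X) :=
    isEndo_scale hn (by rw [inv_pow, haq])
  set s : PowerSeries k := PowerSeries.C a⁻¹ * PowerSeries.X with hs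
  have hs0 : PowerSeries.constantCoeff s = 0 := by simp [hs]
  set g' : PowerSeries k := g.subst s with hg'
  have hg'e : IsEndo (honda p n k) g' := IsHom.comp hsc hg.1
  have hg'1 : PowerSeries.coeff 1 g' = 1 := by
    rw [hg', coeff_subst_lead_left le_rfl g (fun m hm => by
      rw [Nat.lt_one_iff.mp hm, PowerSeries.coeff_zero_eq_constantCoeff_apply, hs0]), hs,
      PowerSeries.coeff_C_mul, PowerSeries.coeff_one_X, mul_one, mul_inv_cancel₀ ha0]
  obtain ⟨t, ht⟩ := exists_digits hn hg'e hg'1
  set τ : ℕ → k := fun i => if i = 0 then a - 1 else t i with hτ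
  have hser : transSer p (vHonda n) τ = g := by
    have hτ0 : 1 + τ 0 = a := by simp [hτ]
    rw [transSer, hτ0, digitSer_congr _ (t' := t) (fun i hi => by
      rw [hτ]; simp only; rw [if_neg (by omega)]), ← honda, ← ht, hg']
    have hl : PowerSeries.constantCoeff (PowerSeries.C a * PowerSeries.X) = 0 := by simp
    have hls := PowerSeries.HasSubst.of_constantCoeff_zero' hl
    rw [PowerSeries.subst_comp_subst_apply (PowerSeries.HasSubst.of_constantCoeff_zero' hs0) hls, hs,
      ← PowerSeries.smul_eq_C_mul PowerSeries.X a⁻¹, PowerSeries.subst_smul hls, PowerSeries.subst_X hls,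
      PowerSeries.smul_eq_C_mul, ← mul_assoc, ← map_mul, inv_mul_cancel₀ ha0, map_one, one_mul,
      PowerSeries.X_subst]
  refine ⟨τ, hser, fun i hi => law_injective p ?_ i hi⟩
  have h := isHom_transSer p (vHonda n) τ
  rw [hser] at h
  exact IsHom.source_unique h hg.1 hg.2

variable [PerfectRing k p]

/-- Existence of the deformation attached to an automorphism of the special fibre. -/
theorem exists_deformation (hn : 1 ≤ n) {g : PowerSeries k} (hg : IsAut p n k g) :
    ∃ (u : Fin (n - 1) → LT p n k) (φ : PowerSeries (LT p n k)),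
      (∀ i, u i ∈ mIdeal p n k) ∧ IsHom (univLaw p n k) (law p (vTuple n u)) φ ∧
        PowerSeries.map (res p n k) φ = g := by
  set gi := g.substInvOfIsUnit hg.2 with hgi
  have hgi0 : PowerSeries.constantCoeff gi = 0 := PowerSeries.constantCoeff_substInvOfIsUnit _ hg.2
  have hgiL : gi.subst g = PowerSeries.X := PowerSeries.subst_substInvOfIsUnit_left _ hg.1.1 hg.2
  have hgi1 : IsUnit (PowerSeries.coeff 1 gi) := by
    have h := congrArg (PowerSeries.coeff 1) hgiL
    rw [coeff_subst_lead_left le_rfl gi (fun m hm => by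
      rw [Nat.lt_one_iff.mp hm, PowerSeries.coeff_zero_eq_constantCoeff_apply, hg.1.1]),
      PowerSeries.coeff_one_X] at h
    exact IsUnit.of_mul_eq_one _ h
  obtain ⟨τb, hτb, hτbV⟩ := exists_residual_digits hn
    (g := gi) ⟨IsHom.inverse hg.1 hg.2, hgi1⟩
  -- first step: Teichmüller lifts of the digits
  set τ₁ : ℕ → LT p n k := fun i => MvPowerSeries.C (WittVector.teichmuller p (τb i)) with hτ₁
  have hres₁ : (fun i => res p n k (τ₁ i)) = τb := funext fun i => by simp [res, hτ₁]
  set vU : ℕ → LT p n k := vTuple n fun i => MvPowerSeries.X i with hvU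
  have hresU : (fun i => res p n k (vU i)) = vHonda n := funext fun i => by
    rw [hvU, map_vTuple, ← vTuple_zero]
    congr 1
    funext j
    exact res_X p n k j
  set v₁ : ℕ → LT p n k := fun i => if i = 0 then 0 else transV p vU τ₁ i with hv₁
  have hv₁m : ∀ i, v₁ i - vHonda n i ∈ mIdeal p n k := by
    intro i
    rw [mem_mIdeal_iff, map_sub, sub_eq_zero, congrFun (vHonda_map (res p n k) n) i, hv₁]
    simp only
    split_ifs with hi
    · subst hi
      rw [map_zero, vHonda, if_neg (by omega)]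
    · rw [map_transV, hresU, hres₁]
      exact hτbV i (by omega)
  -- second step: the fixed point
  obtain ⟨τ₂, hτ₂, hfix, hmem⟩ := exists_fixed_digits p hn hv₁m
  set u : Fin (n - 1) → LT p n k := fun i => transV p v₁ τ₂ ((i : ℕ) + 1) with hu
  have hum : ∀ i, u i ∈ mIdeal p n k := fun i => by
    have := hmem ((i : ℕ) + 1) (by omega)
    have hne : vHonda n (A := LT p n k) ((i : ℕ) + 1) = 0 := if_neg (by omega)
    rwa [hne, sub_zero] at this
  have hlaw₂ : law p (transV p v₁ τ₂) = law p (vTuple n u) := law_congr p fun i hi => by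
    rw [vTuple]
    split_ifs with h1 h2
    · rw [hu]
      simp only
      rw [Nat.sub_add_cancel hi]
    · rw [hfix i h2.ge, vHonda, if_pos h2]
    · rw [hfix i (by omega), vHonda, if_neg h2]
  have hlaw₁ : law p v₁ = law p (transV p vU τ₁) := law_congr p fun i hi => by
    rw [hv₁]
    simp only
    rw [if_neg (by omega)]
  have h₂ := isHom_transSer p v₁ τ₂
  rw [hlaw₂, hlaw₁] at h₂
  have hψ : IsHom (law p (vTuple n u)) (univLaw p n k)
      ((transSer p vU τ₁).subst (transSer p v₁ τ₂)) := h₂.comp (isHom_transSer p vU τ₁)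
  set Ψ : PowerSeries (LT p n k) := (transSer p vU τ₁).subst (transSer p v₁ τ₂) with hΨ
  have hresΨ : PowerSeries.map (res p n k) Ψ = gi := by
    rw [hΨ]
    refine (map_subst_one (res p n k) _ (a := (transSer p v₁ τ₂ : MvPowerSeries Unit (LT p n k)))
      h₂.1).trans ?_
    change (PowerSeries.map (res p n k) (transSer p vU τ₁)).subst
      (PowerSeries.map (res p n k) (transSer p v₁ τ₂)) = gi
    have hres₂ : (fun i => res p n k (v₁ i)) = vHonda n := funext fun i => by
      have := hv₁m i
      rwa [mem_mIdeal_iff, map_sub, sub_eq_zero, congrFun (vHonda_map (res p n k) n) i] at this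
    rw [map_transSer, map_transSer, hresU, hres₁, hres₂, hτb,
      transSer_honda_zero _ (fun i => (mem_mIdeal_iff p n k _).mp (hτ₂ i)), PowerSeries.X_subst]
  have hΨ1 : IsUnit (PowerSeries.coeff 1 Ψ) := AU.isUnit_of_res (by
    rw [← PowerSeries.coeff_map, hresΨ]
    exact hgi1.ne_zero)
  refine ⟨u, Ψ.substInvOfIsUnit hΨ1, hum, IsHom.inverse hψ hΨ1, ?_⟩
  set φ := Ψ.substInvOfIsUnit hΨ1 with hφ
  have hφ0 : PowerSeries.constantCoeff φ = 0 := PowerSeries.constantCoeff_substInvOfIsUnit _ hΨ1
  have h1 := congrArg (PowerSeries.map (res p n k))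
    (PowerSeries.subst_substInvOfIsUnit_right _ hψ.1 hΨ1)
  have h2 : PowerSeries.map (res p n k) (Ψ.subst φ) =
      gi.subst (PowerSeries.map (res p n k) φ) := by
    refine (map_subst_one (res p n k) Ψ (a := (φ : MvPowerSeries Unit (LT p n k))) hφ0).trans ?_
    rw [hresΨ]
    rfl
  rw [← hφ, h2, PowerSeries.map_X] at h1
  refine subst_injective (f := gi) hgi0 hgi1 (τ := Unit) ?_ hg.1.1 (h1.trans hgiL.symm)
  change PowerSeries.constantCoeff (PowerSeries.map (res p n k) φ) = 0
  rw [← PowerSeries.coeff_zero_eq_constantCoeff_apply, PowerSeries.coeff_map,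
    PowerSeries.coeff_zero_eq_constantCoeff_apply, hφ0, map_zero]

/-- Existence of the action. -/
theorem exists_action (hn : 1 ≤ n) {g : PowerSeries k} (hg : IsAut p n k g) (r : ℕ) :
    ∃ γ φ, IsAction p n k g r γ φ := by
  obtain ⟨u, φ, hu, hφ, hres⟩ := exists_deformation hn hg
  set γ := endo p n k ((WittVector.frobenius : WittVector p k →+* WittVector p k) ^ r) u hu with hγ
  refine ⟨γ, φ, fun a => ?_, ?_, hres⟩
  · rw [hγ, endo_C, RingHom.coe_pow]
  · rw [AU.univLaw_map, hγ]
    simp only [endo_X]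
    exact hφ

end Exists

end Vale.Agent.P217
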