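import Vale.Agent.P217.Action.Exists
import Vale.Agent.P217.HeightIdeal

/-!
# P217, module Action: the height ideals are invariant, `u_h` goes to a unit multiple of `u_h`
-/

open MvPowerSeries Finset
open scoped Classical

noncomputable section

namespace Vale.Agent.P217

variable {p : ℕ} [hp : Fact p.Prime] {n : ℕ} {k : Type} [Field k] [CharP k p] [PerfectRing k p]

/-- `[p]` of a law whose parameters vanish below `h`, in characteristic `p`. -/
lemma pSer_low_char {A : Type} [CommRing A] [CharP A p] {v : ℕ → A} {h : ℕ} (h1 : 1 ≤ h)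
    (hv : ∀ i, 1 ≤ i → i < h → v i = 0) :
    (∀ m < p ^ h, PowerSeries.coeff m (mulSer (law p v) p) = 0) ∧
      PowerSeries.coeff (p ^ h) (mulSer (law p v) p) = v h := by
  refine ⟨fun m hm => ?_, ?_⟩
  · rcases Nat.eq_zero_or_pos m with rfl | hpos
    · rw [PowerSeries.coeff_zero_eq_constantCoeff_apply]; exact constantCoeff_mulSer _ _
    · exact pSer_support p A v h hv m fun hd => not_lt.mpr (Nat.le_of_dvd hpos hd) hm
  · have hmem := pSer_leading p A v h h1
    have hbot : Ideal.span (insert (p : A) (v '' {i | 1 ≤ i ∧ i < h})) = ⊥ := by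
      rw [Ideal.span_eq_bot]
      rintro x (rfl | ⟨i, hi, rfl⟩)
      · exact CharP.cast_eq_zero A p
      · exact hv i hi.1 hi.2
    rw [hbot, Ideal.mem_bot, sub_eq_zero] at hmem
    exact hmem

omit [CharP k p] [PerfectRing k p] in
lemma hIdeal_le_succ (h : ℕ) : hIdeal p n k h ≤ hIdeal p n k (h + 1) := by
  rw [hIdeal, hIdeal, if_neg (Nat.succ_ne_zero h)]
  split_ifs with h0
  · exact bot_le
  · refine Ideal.span_mono (Set.insert_subset_insert (Set.image_mono fun i hi => ?_))
    exact Nat.lt_succ_of_lt hi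

variable {g : PowerSeries k} {r : ℕ} {γ : LT p n k →+* LT p n k}
  {φ : PowerSeries (LT p n k)}

/-- One step: if `γ u_i ∈ I_h` for `i < h`, then `γ u_h` is a unit multiple of `u_h` modulo `I_h`. -/
lemma action_uVar_step (hg : IsAut p n k g) (hγ : IsAction p n k g r γ φ) {i : Fin (n - 1)}
    (hlow : ∀ j : Fin (n - 1), (j : ℕ) < i → γ (MvPowerSeries.X j) ∈ hIdeal p n k ((i : ℕ) + 1)) :
    ∃ c : LT p n k, IsUnit c ∧
      γ (MvPowerSeries.X i) - c * MvPowerSeries.X i ∈ hIdeal p n k ((i : ℕ) + 1) := by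
  set h := (i : ℕ) + 1 with hh
  set π := proj p n k h with hπ
  have : CharP (MvPowerSeries (Up n h) k) p :=
    charP_of_injective_ringHom (f := (MvPowerSeries.C : k →+* MvPowerSeries (Up n h) k))
      MvPowerSeries.C_injective p
  have hφ1 : IsUnit (PowerSeries.coeff 1 φ) := AU.isUnit_of_res (by
    rw [← PowerSeries.coeff_map, hγ.2.2]
    exact hg.2.ne_zero)
  obtain ⟨w, hw⟩ := hφ1
  refine ⟨(w : LT p n k) * ((w ^ p ^ h)⁻¹ : (LT p n k)ˣ), w.isUnit.mul (Units.isUnit _), ?_⟩
  rw [mem_hIdeal_iff p n k (by omega)]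
  -- the two reduced laws
  set v : ℕ → MvPowerSeries (Up n h) k := vTuple n fun j => π (MvPowerSeries.X j) with hv
  set v' : ℕ → MvPowerSeries (Up n h) k := vTuple n fun j => π (γ (MvPowerSeries.X j)) with hv'
  have hF : (univLaw p n k).map π = law p v := AU.univLaw_map _
  have hG : ((univLaw p n k).map γ).map π = law p v' := by
    rw [formalGroup_map_map, AU.univLaw_map]
    rfl
  have hv0 : ∀ a, 1 ≤ a → a < h → v a = 0 := fun a a1 a2 => by
    rw [hv, vTuple, dif_pos ⟨a1, by omega⟩, ← mem_hIdeal_iff p n k (by omega)]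
    rw [hIdeal, if_neg (by omega)]
    refine Ideal.subset_span (Set.mem_insert_of_mem _ ⟨_, ?_, rfl⟩)
    change a - 1 + 1 < h
    omega
  have hv0' : ∀ a, 1 ≤ a → a < h → v' a = 0 := fun a a1 a2 => by
    rw [hv', vTuple, dif_pos ⟨a1, by omega⟩, ← mem_hIdeal_iff p n k (by omega)]
    exact hlow _ (by simp only; omega)
  have hhom : IsHom (law p v) (law p v') (PowerSeries.map π φ) := by
    rw [← hF, ← hG]
    exact hγ.2.1.map' π
  obtain ⟨hP, hPq⟩ := pSer_low_char (p := p) (h := h) (by omega) hv0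
  obtain ⟨hP', hPq'⟩ := pSer_low_char (p := p) (h := h) (by omega) hv0'
  have key := lead_of_commute (Nat.one_le_pow _ _ hp.out.pos) hP hP' hhom.1
    (hhom.subst_mulSer p)
  rw [hPq, hPq', PowerSeries.coeff_map, ← hw] at key
  have hvh : v h = π (MvPowerSeries.X i) := by
    rw [hv, vTuple, dif_pos ⟨by omega, by omega⟩]
    simp only [hh, Nat.add_sub_cancel]
  have hvh' : v' h = π (γ (MvPowerSeries.X i)) := by
    rw [hv', vTuple, dif_pos ⟨by omega, by omega⟩]
    simp only [hh, Nat.add_sub_cancel]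
  rw [hvh, hvh'] at key
  have hinv : π (w : LT p n k) ^ p ^ h * π ((w ^ p ^ h)⁻¹ : (LT p n k)ˣ) = 1 := by
    rw [← map_pow, ← map_mul, ← Units.val_pow_eq_pow_val, Units.mul_inv, map_one]
  rw [map_sub, map_mul, map_mul, sub_eq_zero]
  linear_combination (-(π (γ (MvPowerSeries.X i)))) * hinv -
    π ((w ^ p ^ h)⁻¹ : (LT p n k)ˣ) * key

/-- `γ u_i ∈ I_h` for `i < h`. -/
lemma action_uVar_mem (hg : IsAut p n k g) (hγ : IsAction p n k g r γ φ) :
    ∀ (h : ℕ) (i : Fin (n - 1)), (i : ℕ) + 1 < h → γ (MvPowerSeries.X i) ∈ hIdeal p n k h := by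
  intro h
  induction h with
  | zero => intro i hi; omega
  | succ h ih =>
    intro i hi
    rcases Nat.lt_succ_iff_lt_or_eq.mp hi with hlt | heq
    · exact hIdeal_le_succ h (ih i hlt)
    · subst heq
      obtain ⟨c, -, hc⟩ := action_uVar_step hg hγ fun j hj => ih j (by omega)
      have hX : (MvPowerSeries.X i : LT p n k) ∈ hIdeal p n k ((i : ℕ) + 1 + 1) := by
        rw [hIdeal, if_neg (Nat.succ_ne_zero _)]
        exact Ideal.subset_span (Set.mem_insert_of_mem _ ⟨i, Nat.lt_succ_self _, rfl⟩)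
      have := Ideal.add_mem _ (hIdeal_le_succ _ hc) (Ideal.mul_mem_left _ c hX)
      rwa [sub_add_cancel] at this

/-- The height ideals are invariant. -/
theorem action_hIdeal (hg : IsAut p n k g) (hγ : IsAction p n k g r γ φ) (h : ℕ)
    {f : LT p n k} (hf : f ∈ hIdeal p n k h) : γ f ∈ hIdeal p n k h := by
  rcases Nat.eq_zero_or_pos h with rfl | h1
  · rw [hIdeal, if_pos rfl, Ideal.mem_bot] at hf ⊢
    rw [hf, map_zero]
  · have hle : hIdeal p n k h ≤ (hIdeal p n k h).comap γ := by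
      conv_lhs => rw [hIdeal, if_neg (by omega)]
      rw [Ideal.span_le]
      rintro x (rfl | ⟨i, hi, rfl⟩)
      · rw [SetLike.mem_coe, Ideal.mem_comap, map_natCast, hIdeal, if_neg (by omega)]
        exact Ideal.subset_span (Set.mem_insert _ _)
      · exact action_uVar_mem hg hγ h i hi
    exact hle hf

/-- `u_h` goes to a unit multiple of itself modulo `I_h`. -/
theorem action_uVar_unit (hg : IsAut p n k g) (hγ : IsAction p n k g r γ φ) (i : Fin (n - 1)) :
    ∃ c : LT p n k, IsUnit c ∧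
      γ (MvPowerSeries.X i) - c * MvPowerSeries.X i ∈ hIdeal p n k ((i : ℕ) + 1) :=
  action_uVar_step hg hγ fun j hj => action_uVar_mem hg hγ _ j (by omega)

end Vale.Agent.P217
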