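import Vale.Agent.P217.Action.Transport
import Vale.Agent.P217.Monomial
import Vale.Agent.P217.ActionUnique.Basic

/-!
# P217, module Action: endomorphisms of the Honda law in characteristic `p` are digit series
-/

open MvPowerSeries Finset
open scoped Classical

noncomputable section

namespace Vale.Agent.P217

variable {p : ℕ} [hp : Fact p.Prime]

lemma choose_pow_mul_modEq (m : ℕ) : ∀ v, (p ^ v * m).choose (p ^ v) ≡ m [MOD p] := by
  intro v
  induction v with
  | zero => simp [Nat.ModEq.refl]
  | succ v ih =>
      rw [pow_succ', mul_assoc]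
      exact Choose.choose_mul_mul_modEq_choose_nat.trans ih

omit hp in
lemma digitSer_congr {A : Type*} [CommRing A] (F : FormalGroup A) {t t' : ℕ → A}
    (h : ∀ i, 1 ≤ i → t i = t' i) : digitSer p F t = digitSer p F t' := by
  have e : ∀ N, dser p F t N = dser p F t' N := by
    intro N
    induction N with
    | zero => rfl
    | succ N ih => rw [dser, dser, ih, h (N + 1) (by omega)]
  ext m
  rw [digitSer, digitSer, PowerSeries.coeff_mk, PowerSeries.coeff_mk, e]

variable {k : Type} [Field k] [CharP k p]

/-- Homomorphisms agreeing below `M` agree at `M` unless `M` is a power of `p`. -/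
lemma coeff_eq_of_agree {F G : FormalGroup k} {φ ψ : PowerSeries k} (hφ : IsHom F G φ)
    (hψ : IsHom F G ψ) {M : ℕ} (hM : ∀ v, M ≠ p ^ v)
    (h : ∀ m < M, PowerSeries.coeff m φ = PowerSeries.coeff m ψ) :
    PowerSeries.coeff M φ = PowerSeries.coeff M ψ := by
  rcases Nat.eq_zero_or_pos M with rfl | hpos
  · rw [PowerSeries.coeff_zero_eq_constantCoeff_apply, PowerSeries.coeff_zero_eq_constantCoeff_apply,
      hφ.1, hψ.1]
  obtain ⟨v, m, hm, rfl⟩ := Nat.exists_eq_pow_mul_and_not_dvd hpos.ne' p hp.out.ne_one
  have hm1 : 1 < m := by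
    rcases (by omega : m = 0 ∨ m = 1 ∨ 1 < m) with rfl | rfl | h1
    · exact absurd (dvd_zero p) hm
    · exact absurd (mul_one _) (hM v)
    · exact h1
  set M := p ^ v * m with hMd
  have hlt : p ^ v < M := lt_mul_of_one_lt_right (pow_pos hp.out.pos v) hm1
  set d : Fin 2 →₀ ℕ := Finsupp.single 0 (p ^ v) + Finsupp.single 1 (M - p ^ v) with hd
  have hd0 : d 0 = p ^ v := by simp [hd]
  have hd1 : d 1 = M - p ^ v := by simp [hd]
  have hdeg : d.degree = M := by rw [degree_fin_two, hd0, hd1]; omega
  have hpos' := pow_pos hp.out.pos v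
  -- the left hand sides
  have hL : coeff d (φ.subst F.toPowerSeries) - coeff d (ψ.subst F.toPowerSeries) =
      (PowerSeries.coeff M φ - PowerSeries.coeff M ψ) * coeff d (F.toPowerSeries ^ M) := by
    rw [coeff_subst_sum φ F.zero_constantCoeff hdeg.le,
      coeff_subst_sum ψ F.zero_constantCoeff hdeg.le, ← Finset.sum_sub_distrib,
      Finset.sum_range_succ, Finset.sum_eq_zero (fun l hl => by
        rw [h l (Finset.mem_range.mp hl), sub_self]), zero_add, sub_mul]
  have hpow : coeff d (F.toPowerSeries ^ M) = (m : k) := by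
    obtain ⟨r, hr⟩ : ∃ r, M = r + 1 := ⟨M - 1, by omega⟩
    have hord := le_order_pow_sub_pow F.zero_constantCoeff (by simp) (D := 2)
      (coeff_formalGroup_low F) r
    have h2 := coeff_of_lt_order
      (lt_of_lt_of_le (Nat.cast_lt.mpr (show d.degree < 2 + r by omega)) hord)
    rw [map_sub, sub_eq_zero, ← hr] at h2
    rw [h2]
    have hs : PowerSeries.HasSubst (X 0 + X 1 : MvPowerSeries (Fin 2) k) :=
      PowerSeries.HasSubst.of_constantCoeff_zero (by simp)
    have h3 := PowerSeries.coeff_subst_X_zero_add_X_one ((PowerSeries.X : PowerSeries k) ^ M) d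
    rw [PowerSeries.subst_pow hs, PowerSeries.subst_X hs] at h3
    rw [h3, hd0, hd1, show p ^ v + (M - p ^ v) = M by omega, PowerSeries.coeff_X_pow, if_pos rfl,
      mul_one, hMd]
    exact (CharP.natCast_eq_natCast k p).mpr (choose_pow_mul_modEq m v)
  -- the right hand sides
  have hX : ∀ (i : Fin 2) (f : PowerSeries k),
      coeff d (f.subst (X i : MvPowerSeries (Fin 2) k)) = 0 := fun i f => by
    rw [PowerSeries.coeff_subst_single, if_neg]
    intro hh
    have h0 := congrArg (fun e : Fin 2 →₀ ℕ => e 0) hh
    have h1 := congrArg (fun e : Fin 2 →₀ ℕ => e 1) hh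
    fin_cases i <;> simp [hd0, hd1, hp.out.ne_zero] at h0 h1
    omega
  have hlow : ∀ (i : Fin 2) (e : Fin 2 →₀ ℕ), e.degree < d.degree →
      coeff e (φ.subst (X i : MvPowerSeries (Fin 2) k)) = coeff e (ψ.subst (X i)) := fun i e he => by
    rw [PowerSeries.coeff_subst_single, PowerSeries.coeff_subst_single]
    split_ifs with hh
    · refine h _ (lt_of_le_of_lt ?_ (hdeg ▸ he))
      rw [degree_fin_two]
      fin_cases i <;> simp
    · rfl
  have hR := coeff_fadd_sub G (constantCoeff_subst_zero φ hφ.1 (constantCoeff_X 0))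
    (constantCoeff_subst_zero ψ hψ.1 (constantCoeff_X 0))
    (constantCoeff_subst_zero φ hφ.1 (constantCoeff_X 1))
    (constantCoeff_subst_zero ψ hψ.1 (constantCoeff_X 1)) (hlow 0) (hlow 1)
  rw [hX, hX, hX, hX, sub_self, add_zero] at hR
  change coeff d (fadd G (φ.subst x0) (φ.subst x1)) - coeff d (fadd G (ψ.subst x0) (ψ.subst x1)) = _
    at hR
  rw [← hφ.2, ← hψ.2, hL, hpow, mul_eq_zero] at hR
  refine sub_eq_zero.mp (hR.resolve_right fun h0 => hm ?_)
  exact (CharP.cast_eq_zero_iff k p m).mp h0

/-- A strict endomorphism of the Honda law is a digit series. -/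
theorem exists_digits {n : ℕ} (hn : 1 ≤ n) {g : PowerSeries k} (hg : IsEndo (honda p n k) g)
    (h1 : PowerSeries.coeff 1 g = 1) : ∃ t : ℕ → k, g = digitSer p (honda p n k) t := by
  set F := honda p n k with hF
  have hcomm : F.IsComm := law_isComm p _
  obtain ⟨S, hS0, hS1⟩ : ∃ S : ℕ → PowerSeries k, S 0 = PowerSeries.X ∧ ∀ N, S (N + 1) =
      fadd F (S N) (PowerSeries.C (PowerSeries.coeff (p ^ (N + 1)) g -
        PowerSeries.coeff (p ^ (N + 1)) (S N)) * PowerSeries.X ^ p ^ (N + 1)) :=
    ⟨fun N => Nat.rec PowerSeries.X (fun N SN =>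
      fadd F SN (PowerSeries.C (PowerSeries.coeff (p ^ (N + 1)) g -
        PowerSeries.coeff (p ^ (N + 1)) SN) * PowerSeries.X ^ p ^ (N + 1))) N, rfl, fun _ => rfl⟩
  set t : ℕ → k := fun i => PowerSeries.coeff (p ^ i) g - PowerSeries.coeff (p ^ i) (S (i - 1))
    with ht
  have hdser : ∀ N, dser p F t N = S N := by
    intro N
    induction N with
    | zero => rw [hS0]; rfl
    | succ N ih => rw [dser, ih, hS1, ht]; rfl
  have hendo : ∀ N, IsEndo F (S N) := by
    intro N
    induction N with
    | zero => rw [hS0]; exact AU.isHom_X F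
    | succ N ih =>
        rw [hS1]
        refine IsHom.fadd hcomm ih (isEndo_monomial hn ?_ (N + 1))
        rw [sub_pow_char_pow (R := k) (p := p), coeff_endo_honda p hn hg,
          coeff_endo_honda p hn ih]
  have hagree : ∀ N m, m < p ^ (N + 1) → PowerSeries.coeff m (S N) = PowerSeries.coeff m g := by
    intro N
    induction N with
    | zero =>
        intro m
        induction m using Nat.strong_induction_on with
        | _ m ihm =>
          intro hm
          by_cases hv : ∃ v, m = p ^ v
          · obtain ⟨v, rfl⟩ := hv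
            have : v < 1 := (Nat.pow_lt_pow_iff_right hp.out.one_lt).mp (by simpa using hm)
            obtain rfl : v = 0 := by omega
            rw [pow_zero, hS0, PowerSeries.coeff_one_X, h1]
          · rw [not_exists] at hv
            exact coeff_eq_of_agree (hendo 0) hg hv fun l hl => ihm l hl (hl.trans hm)
    | succ N ih =>
        intro m
        induction m using Nat.strong_induction_on with
        | _ m ihm =>
          intro hm
          by_cases hlow : m < p ^ (N + 1)
          · have := coeff_dser_succ p F t hlow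
            rw [hdser, hdser] at this
            rw [this, ih m hlow]
          by_cases hv : ∃ v, m = p ^ v
          · obtain ⟨v, rfl⟩ := hv
            have a1 := (Nat.pow_le_pow_iff_right hp.out.one_lt).mp (not_lt.mp hlow)
            have a2 := (Nat.pow_lt_pow_iff_right hp.out.one_lt).mp hm
            obtain rfl : v = N + 1 := by omega
            have hb0 : constantCoeff (PowerSeries.C (PowerSeries.coeff (p ^ (N + 1)) g -
                PowerSeries.coeff (p ^ (N + 1)) (S N)) * PowerSeries.X ^ p ^ (N + 1) :
                  PowerSeries k) = 0 := constantCoeff_mono p _ _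
            have h := coeff_fadd_sub F (a := (S N : MvPowerSeries Unit k))
              (a' := (S N : MvPowerSeries Unit k))
              (b := (PowerSeries.C (PowerSeries.coeff (p ^ (N + 1)) g -
                PowerSeries.coeff (p ^ (N + 1)) (S N)) * PowerSeries.X ^ p ^ (N + 1) : PowerSeries k))
              (b' := 0) (hendo N).1 (hendo N).1 hb0 (map_zero _)
              (d := Finsupp.single () (p ^ (N + 1))) (fun _ _ => rfl) fun e he => by
                obtain ⟨l, rfl⟩ : ∃ l, e = Finsupp.single () l :=
                  ⟨e (), Finsupp.unique_single e⟩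
                rw [Finsupp.degree_single, Finsupp.degree_single] at he
                rw [map_zero]
                change PowerSeries.coeff l _ = 0
                rw [PowerSeries.coeff_C_mul, PowerSeries.coeff_X_pow, if_neg he.ne, mul_zero]
            rw [fadd_zero' F (hendo N).1, ← hS1, map_zero, sub_zero, sub_self, zero_add] at h
            change PowerSeries.coeff (p ^ (N + 1)) (S (N + 1)) -
              PowerSeries.coeff (p ^ (N + 1)) (S N) = PowerSeries.coeff (p ^ (N + 1)) _ at h
            rw [PowerSeries.coeff_C_mul, PowerSeries.coeff_X_pow, if_pos rfl, mul_one] at h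
            linear_combination h
          · rw [not_exists] at hv
            exact coeff_eq_of_agree (hendo (N + 1)) hg hv fun l hl => ihm l hl (hl.trans hm)
  refine ⟨t, PowerSeries.ext fun m => ?_⟩
  have hm : m < p ^ (m + 1) := (Nat.lt_succ_self m).trans (Nat.lt_pow_self hp.out.one_lt)
  rw [coeff_digitSer p F t hm, hdser, hagree m m hm]

end Vale.Agent.P217
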