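import Vale.Agent.P217.Action.Basic
import Mathlib.Algebra.DualNumber

/-!
# P217, module Action: transport of `law p v` along digit series

`transSer p v τ = (X +_F ∑^F_(i ≥ 1) τ_i X^(p^i)) ∘ ((1 + τ_0) X)` is a homomorphism
`law p (transV p v τ) → law p v`, where `transV p v τ K` is a universal polynomial in `v, τ`.
Its differential at `(δ_n, 0)` is computed with dual numbers.
-/

open MvPowerSeries Finset
open scoped Classical

noncomputable section

namespace Vale.Agent.P217

universe u v w

/-! ### Digit series -/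

section Digits

variable (p : ℕ) {A : Type u} [CommRing A] (F : FormalGroup A)

/-- Partial formal sums `X +_F τ_1 X^p +_F … +_F τ_N X^(p^N)`. -/
def dser (t : ℕ → A) : ℕ → PowerSeries A
  | 0 => PowerSeries.X
  | N + 1 => fadd F (dser t N) (PowerSeries.C (t (N + 1)) * PowerSeries.X ^ p ^ (N + 1))

/-- Their limit. -/
def digitSer (t : ℕ → A) : PowerSeries A :=
  PowerSeries.mk fun m => PowerSeries.coeff m (dser p F t m)

variable [hp : Fact p.Prime]

lemma constantCoeff_mono (a : A) (i : ℕ) :
    PowerSeries.constantCoeff (PowerSeries.C a * PowerSeries.X ^ p ^ i) = 0 := by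
  simp [hp.out.ne_zero]

lemma constantCoeff_dser (t : ℕ → A) : ∀ N, PowerSeries.constantCoeff (dser p F t N) = 0 := by
  intro N
  induction N with
  | zero => simp [dser]
  | succ N ih => exact constantCoeff_fadd F ih (constantCoeff_mono p _ _)

lemma coeff_dser_succ (t : ℕ → A) {N m : ℕ} (hm : m < p ^ (N + 1)) :
    PowerSeries.coeff m (dser p F t (N + 1)) = PowerSeries.coeff m (dser p F t N) := by
  have hlow : ∀ k, k < p ^ (N + 1) →
      PowerSeries.coeff k (PowerSeries.C (t (N + 1)) * PowerSeries.X ^ p ^ (N + 1)) = 0 :=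
    fun k hk => by rw [PowerSeries.coeff_C_mul, PowerSeries.coeff_X_pow, if_neg hk.ne, mul_zero]
  have h := coeff_fadd_sub F (a := (dser p F t N : MvPowerSeries Unit A))
    (a' := (dser p F t N : MvPowerSeries Unit A))
    (b := (PowerSeries.C (t (N + 1)) * PowerSeries.X ^ p ^ (N + 1) : PowerSeries A)) (b' := 0)
    (constantCoeff_dser p F t N) (constantCoeff_dser p F t N) (constantCoeff_mono p _ _) (map_zero _)
    (d := Finsupp.single () m) (fun _ _ => rfl) fun e he => by
      obtain ⟨k, rfl⟩ : ∃ k, e = Finsupp.single () k := ⟨e (), Finsupp.unique_single e⟩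
      rw [Finsupp.degree_single, Finsupp.degree_single] at he
      rw [map_zero]
      exact hlow k (by omega)
  rw [fadd_zero' F (constantCoeff_dser p F t N)] at h
  change PowerSeries.coeff m (dser p F t (N + 1)) - PowerSeries.coeff m (dser p F t N) =
    (PowerSeries.coeff m (dser p F t N) - PowerSeries.coeff m (dser p F t N)) +
      (PowerSeries.coeff m (PowerSeries.C (t (N + 1)) * PowerSeries.X ^ p ^ (N + 1)) -
        PowerSeries.coeff m (0 : PowerSeries A)) at h
  rw [hlow m hm, map_zero, sub_self, sub_self, add_zero, sub_eq_zero] at h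
  exact h

lemma coeff_digitSer (t : ℕ → A) {m N : ℕ} (hN : m < p ^ (N + 1)) :
    PowerSeries.coeff m (digitSer p F t) = PowerSeries.coeff m (dser p F t N) := by
  have key : ∀ a b, a ≤ b → m < p ^ (a + 1) →
      PowerSeries.coeff m (dser p F t b) = PowerSeries.coeff m (dser p F t a) := by
    intro a b hab ha
    induction b, hab using Nat.le_induction with
    | base => rfl
    | succ b hb ih =>
        rw [coeff_dser_succ p F t (lt_of_lt_of_le ha (Nat.pow_le_pow_right hp.out.pos (by omega))),
          ih]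
  rw [digitSer, PowerSeries.coeff_mk]
  rcases le_total m N with h | h
  · exact (key m N h ((Nat.lt_succ_self m).trans (Nat.lt_pow_self hp.out.one_lt))).symm
  · exact key N m h hN

lemma constantCoeff_digitSer (t : ℕ → A) : PowerSeries.constantCoeff (digitSer p F t) = 0 := by
  rw [← PowerSeries.coeff_zero_eq_constantCoeff_apply,
    coeff_digitSer p F t (N := 0) (pow_pos hp.out.pos _), dser, PowerSeries.coeff_X, if_neg]
  simp

lemma coeff_one_digitSer (t : ℕ → A) : PowerSeries.coeff 1 (digitSer p F t) = 1 := by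
  rw [coeff_digitSer p F t (N := 0) (by simpa using hp.out.one_lt), dser, PowerSeries.coeff_one_X]

lemma map_dser {B : Type v} [CommRing B] (g : A →+* B) (t : ℕ → A) :
    ∀ N, PowerSeries.map g (dser p F t N) = dser p (F.map g) (fun i => g (t i)) N := by
  intro N
  induction N with
  | zero => simp [dser]
  | succ N ih =>
      rw [dser, dser]
      refine (map_fadd g F (constantCoeff_dser p F t N) (constantCoeff_mono p _ _)).trans ?_
      refine congrArg₂ (fun a b => fadd (F.map g) a b) ih ?_
      change PowerSeries.map g _ = _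
      rw [map_mul, PowerSeries.map_C, map_pow, PowerSeries.map_X]

lemma map_digitSer {B : Type v} [CommRing B] (g : A →+* B) (t : ℕ → A) :
    PowerSeries.map g (digitSer p F t) = digitSer p (F.map g) (fun i => g (t i)) := by
  ext m
  rw [PowerSeries.coeff_map, digitSer, digitSer, PowerSeries.coeff_mk, PowerSeries.coeff_mk,
    ← map_dser, PowerSeries.coeff_map]

omit hp in
lemma digitSer_zero (t : ℕ → A) (ht : ∀ i, 1 ≤ i → t i = 0) :
    digitSer p F t = PowerSeries.X := by
  have h : ∀ N, dser p F t N = PowerSeries.X := by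
    intro N
    induction N with
    | zero => rfl
    | succ N ih =>
        rw [dser, ih, ht _ (by omega), map_zero, zero_mul]
        exact fadd_zero' F PowerSeries.constantCoeff_X
  ext m
  rw [digitSer, PowerSeries.coeff_mk, h]

end Digits

/-! ### The logarithm of a digit series -/

section Log

variable {p : ℕ} [hp : Fact p.Prime] {K : Type u} [CommRing K]

omit hp in
lemma coeff_subst_mono (f : PowerSeries K) (a : K) {q : ℕ} (hq : q ≠ 0) (m : ℕ) :
    PowerSeries.coeff m (f.subst (PowerSeries.C a * PowerSeries.X ^ q : PowerSeries K)) =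
      if q ∣ m then a ^ (m / q) * PowerSeries.coeff (m / q) f else 0 := by
  have hl : PowerSeries.HasSubst (a • PowerSeries.X : PowerSeries K) :=
    PowerSeries.HasSubst.of_constantCoeff_zero' (by simp)
  have hs : PowerSeries.HasSubst ((PowerSeries.X : PowerSeries K) ^ q) :=
    PowerSeries.HasSubst.of_constantCoeff_zero' (by simp [hq])
  have e : (a • PowerSeries.X : PowerSeries K).subst ((PowerSeries.X : PowerSeries K) ^ q) =
      PowerSeries.C a * PowerSeries.X ^ q := by
    rw [PowerSeries.subst_smul hs, PowerSeries.subst_X hs, PowerSeries.smul_eq_C_mul]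
  rw [← e, ← PowerSeries.subst_comp_subst_apply hl hs, ← PowerSeries.rescale_eq_subst,
    PowerSeries.coeff_subst_X_pow hq, PowerSeries.coeff_rescale]
  simp

/-- The logarithm of a digit series, in degree `m`. -/
lemma coeff_log_digitSer {F : FormalGroup K} {f : PowerSeries K} (hF : HasLog F f) (t : ℕ → K)
    (m : ℕ) :
    PowerSeries.coeff m (f.subst (digitSer p F t)) = ∑ i ∈ range (m + 1),
      if p ^ i ∣ m then
        (if i = 0 then 1 else t i) ^ (m / p ^ i) * PowerSeries.coeff (m / p ^ i) f else 0 := by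
  have hm : ∀ k ≤ m, k < p ^ (m + 1) := fun k hk =>
    lt_of_le_of_lt hk ((Nat.lt_succ_self m).trans (Nat.lt_pow_self hp.out.one_lt))
  have hN : ∀ N, f.subst (dser p F t N) = ∑ i ∈ range (N + 1),
      f.subst (PowerSeries.C (if i = 0 then 1 else t i) * PowerSeries.X ^ p ^ i : PowerSeries K) := by
    intro N
    induction N with
    | zero => simp [dser]
    | succ N ih =>
        rw [Finset.sum_range_succ, ← ih, dser, if_neg (Nat.succ_ne_zero N)]
        exact hF.subst_fadd (constantCoeff_dser p F t N) (constantCoeff_mono p _ _)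
  have h1 := coeff_subst_sub_of_agree f (a := (digitSer p F t : MvPowerSeries Unit K))
    (b := (dser p F t m : MvPowerSeries Unit K)) (constantCoeff_digitSer p F t)
    (constantCoeff_dser p F t m) (d := Finsupp.single () m) fun e he => by
      obtain ⟨k, rfl⟩ : ∃ k, e = Finsupp.single () k := ⟨e (), Finsupp.unique_single e⟩
      rw [Finsupp.degree_single, Finsupp.degree_single] at he
      exact coeff_digitSer p F t (hm k he.le)
  change PowerSeries.coeff m _ - PowerSeries.coeff m _ = PowerSeries.coeff 1 f *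
    (PowerSeries.coeff m (digitSer p F t) - PowerSeries.coeff m (dser p F t m)) at h1
  rw [coeff_digitSer p F t (hm m le_rfl), sub_self, mul_zero, sub_eq_zero] at h1
  rw [h1, hN, map_sum]
  exact Finset.sum_congr rfl fun i _ => coeff_subst_mono f _ (pow_ne_zero _ hp.out.ne_zero) m

lemma coeff_log_digitSer_pow {F : FormalGroup K} {v : ℕ → K} (hF : HasLog F (pLog p v))
    (t : ℕ → K) (J : ℕ) :
    PowerSeries.coeff (p ^ J) ((pLog p v).subst (digitSer p F t)) = ∑ i ∈ range (J + 1),
      (if i = 0 then 1 else t i) ^ p ^ (J - i) *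
        (L p v (J - i) * Ring.inverse (p : K) ^ (J - i)) := by
  rw [coeff_log_digitSer hF]
  have hsub : range (J + 1) ⊆ range (p ^ J + 1) :=
    Finset.range_subset_range.mpr (Nat.succ_le_succ (Nat.lt_pow_self hp.out.one_lt).le)
  rw [← Finset.sum_subset hsub]
  · refine Finset.sum_congr rfl fun i hi => ?_
    rw [Finset.mem_range] at hi
    rw [if_pos (pow_dvd_pow p (by omega)), Nat.pow_div (by omega) hp.out.pos, coeff_pLog_pow]
  · intro i _ hi
    rw [Finset.mem_range] at hi
    exact if_neg fun h => hi (Nat.lt_succ_of_le ((Nat.pow_dvd_pow_iff_le_right hp.out.one_lt).mp h))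

lemma coeff_log_digitSer_other {F : FormalGroup K} {v : ℕ → K} (hF : HasLog F (pLog p v))
    (t : ℕ → K) {m : ℕ} (hm : ∀ J, m ≠ p ^ J) :
    PowerSeries.coeff m ((pLog p v).subst (digitSer p F t)) = 0 := by
  rw [coeff_log_digitSer hF]
  refine Finset.sum_eq_zero fun i _ => ?_
  split_ifs with h <;> try rfl
  all_goals
    rw [coeff_pLog_other _ (m := m / p ^ i) fun J hJ => hm (J + i) ?_, mul_zero]
    rw [pow_add, ← hJ, Nat.div_mul_cancel h]

end Log

/-! ### The universal transported parameters -/

section Universal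

variable (p : ℕ) [hp : Fact p.Prime]

/-- `ℤ[v, τ]`. -/
abbrev TP : Type := MvPolynomial (ℕ ⊕ ℕ) ℤ

/-- `ℚ[v, τ]`. -/
abbrev TPQ : Type := MvPolynomial (ℕ ⊕ ℕ) ℚ

/-- The inclusion. -/
def tQ : TP →+* TPQ := MvPolynomial.map (Int.castRingHom ℚ)

lemma tQ_injective : Function.Injective tQ :=
  MvPolynomial.map_injective _ (RingHom.injective_int _)

/-- `1 / p`. -/
def tc : TPQ := MvPolynomial.C ((p : ℚ)⁻¹)

lemma p_mul_tc : (p : TPQ) * tc p = 1 := by
  rw [tc, ← map_natCast (MvPolynomial.C : ℚ →+* TPQ), ← map_mul,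
    mul_inv_cancel₀ (Nat.cast_ne_zero.mpr hp.out.ne_zero), map_one]

/-- Universal parameters. -/
def tv (i : ℕ) : TPQ := MvPolynomial.X (Sum.inl i)

/-- Universal digits. -/
def ts (i : ℕ) : TPQ := MvPolynomial.X (Sum.inr i)

/-- The logarithmic coefficient of the transported law. -/
def digitLog (K : ℕ) : TPQ :=
  ∑ i ∈ range (K + 1), (if i = 0 then 1 else ts i) ^ p ^ (K - i) * (L p tv (K - i) * tc p ^ (K - i))

/-- The transported parameters over `ℚ[v, τ]`. -/
def strictQ : ℕ → TPQ
  | 0 => 0
  | K + 1 => (p : TPQ) * digitLog p (K + 1) -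
      ∑ i : Fin K, strictQ (i + 1) ^ p ^ (K - i) * digitLog p (K - i)
  decreasing_by omega

lemma hazCoeff_strictQ : ∀ J, hazCoeff (tc p) (strictQ p) p J = digitLog p J := by
  intro J
  induction J using Nat.strong_induction_on with
  | _ J ih =>
    rcases J with _ | J
    · simp [hazCoeff, digitLog, L_zero]
    · rw [hazCoeff_succ, Finset.sum_range_succ, Nat.sub_self, pow_zero, pow_one,
        ih 0 (by omega), show digitLog p 0 = 1 by simp [digitLog, L_zero], mul_one,
        Finset.sum_congr rfl (g := fun i => strictQ p (i + 1) ^ p ^ (J - i) * digitLog p (J - i))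
          fun i hi => by rw [ih (J - i) (by omega)]]
      rw [strictQ, Fin.sum_univ_eq_sum_range (fun i => strictQ p (i + 1) ^ p ^ (J - i) *
        digitLog p (J - i)), mul_add, mul_sub, ← mul_assoc, mul_comm (tc p) (p : TPQ), p_mul_tc,
        one_mul]
      ring

lemma hasLog_tv : HasLog (law p tv) (pLog p tv) :=
  hasLog_law p tv (IsUnit.of_mul_eq_one _ (p_mul_tc p))

lemma pLog_strictQ : pLog p (strictQ p) = (pLog p tv).subst (digitSer p (law p tv) ts) := by
  ext1 m
  by_cases hJ : ∃ J, m = p ^ J
  · obtain ⟨J, rfl⟩ := hJ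
    rw [coeff_log_digitSer_pow (hasLog_tv p), coeff_pLog_pow, inverse_natCast_eq (p_mul_tc p),
      ← hazCoeff_eq_L (p_mul_tc p), hazCoeff_strictQ]
    rfl
  · rw [not_exists] at hJ
    rw [coeff_pLog_other _ hJ, coeff_log_digitSer_other (hasLog_tv p) ts hJ]

lemma isHom_strictQ : IsHom (law p (strictQ p)) (law p tv) (digitSer p (law p tv) ts) := by
  have hT := hasLog_law p (strictQ p) (IsUnit.of_mul_eq_one _ (p_mul_tc p))
  set ψ := digitSer p (law p tv) ts with hψ
  have hψ0 : PowerSeries.constantCoeff ψ = 0 := constantCoeff_digitSer _ _ _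
  have hψs := PowerSeries.HasSubst.of_constantCoeff_zero' hψ0
  have hc : ∀ {x : MvPowerSeries (Fin 2) TPQ}, constantCoeff x = 0 →
      constantCoeff (ψ.subst x) = 0 := fun hx => constantCoeff_subst_zero _ hψ0 hx
  have hev : ∀ {x : MvPowerSeries (Fin 2) TPQ}, constantCoeff x = 0 →
      (pLog p tv).subst (ψ.subst x) = (pLog p (strictQ p)).subst x := fun hx => by
    rw [pLog_strictQ,
      PowerSeries.subst_comp_subst_apply hψs (PowerSeries.HasSubst.of_constantCoeff_zero hx)]
  refine ⟨hψ0, subst_injective (constantCoeff_pLog (p := p) tv)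
    (isUnit_coeff_one_pLog (p := p) tv) (hc (law p (strictQ p)).zero_constantCoeff)
    (constantCoeff_fadd _ (hc (constantCoeff_X _)) (hc (constantCoeff_X _))) ?_⟩
  rw [hev (law p (strictQ p)).zero_constantCoeff,
    (hasLog_tv p).subst_fadd (hc (constantCoeff_X _)) (hc (constantCoeff_X _)),
    hev (constantCoeff_X _), hev (constantCoeff_X _)]
  exact hT

theorem strictQ_mem : ∀ K, strictQ p K ∈ tQ.range := by
  set v0 : ℕ → TP := fun i => MvPolynomial.X (Sum.inl i) with hv0
  set s0 : ℕ → TP := fun i => MvPolynomial.X (Sum.inr i) with hs0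
  set ψ := digitSer p (law p v0) s0 with hψd
  have hψ0 : PowerSeries.constantCoeff ψ = 0 := constantCoeff_digitSer _ _ _
  have hψ1 : IsUnit (PowerSeries.coeff 1 ψ) := by
    rw [hψd, coeff_one_digitSer]
    exact isUnit_one
  have hlaw : (law p v0).map tQ = law p tv := by
    rw [map_law]; congr 1; funext i; simp [hv0, tv, tQ]
  have hψQ : PowerSeries.map tQ ψ = digitSer p (law p tv) ts := by
    rw [hψd, map_digitSer, hlaw]; congr 1; funext i; simp [hs0, ts, tQ]
  -- the conjugated law has integral coefficients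
  set i0 := ψ.substInvOfIsUnit hψ1 with hi0
  set G : MvPowerSeries (Fin 2) TP := i0.subst
    (fadd (law p v0) (ψ.subst (X 0 : MvPowerSeries (Fin 2) TP)) (ψ.subst (X 1))) with hGd
  have hh0 : constantCoeff (fadd (law p v0) (ψ.subst (X 0 : MvPowerSeries (Fin 2) TP))
      (ψ.subst (X 1))) = 0 :=
    constantCoeff_fadd _ (constantCoeff_subst_zero _ hψ0 (constantCoeff_X _))
      (constantCoeff_subst_zero _ hψ0 (constantCoeff_X _))
  have hG0 : constantCoeff G = 0 :=
    constantCoeff_subst_zero _ (PowerSeries.constantCoeff_substInvOfIsUnit _ hψ1) hh0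
  have hψG : ψ.subst G = fadd (law p v0) (ψ.subst (X 0 : MvPowerSeries (Fin 2) TP))
      (ψ.subst (X 1)) := by
    rw [hGd, ← PowerSeries.subst_comp_subst_apply (PowerSeries.HasSubst.substInvOfIsUnit _ hψ1)
      (PowerSeries.HasSubst.of_constantCoeff_zero hh0),
      PowerSeries.subst_substInvOfIsUnit_right _ hψ0 hψ1,
      PowerSeries.subst_X (PowerSeries.HasSubst.of_constantCoeff_zero hh0)]
  have hGQ : MvPowerSeries.map tQ G = (law p (strictQ p)).toPowerSeries := by
    have e := congrArg (MvPowerSeries.map tQ) hψG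
    rw [map_subst_one tQ ψ hG0, map_fadd tQ (law p v0)
      (constantCoeff_subst_zero _ hψ0 (constantCoeff_X _))
      (constantCoeff_subst_zero _ hψ0 (constantCoeff_X _)), map_subst_one tQ ψ (constantCoeff_X _),
      map_subst_one tQ ψ (constantCoeff_X _), map_X, map_X, hψQ, hlaw] at e
    refine subst_injective (constantCoeff_digitSer p (law p tv) ts)
      (coeff_one_digitSer p (law p tv) ts ▸ isUnit_one) (by rw [constantCoeff_map, hG0, map_zero])
      (law p (strictQ p)).zero_constantCoeff (e.trans (isHom_strictQ p).2.symm)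
  intro K
  induction K using Nat.strong_induction_on with
  | _ K ih =>
    rcases Nat.eq_zero_or_pos K with rfl | hK
    · exact ⟨0, by rw [map_zero, strictQ]⟩
    have hpre : ∀ i, ∃ a : TP, i < K → tQ a = strictQ p i := fun i => by
      by_cases hi : i < K
      · obtain ⟨a, ha⟩ := ih i hi
        exact ⟨a, fun _ => ha⟩
      · exact ⟨0, fun h => absurd h hi⟩
    choose a ha using hpre
    set a' : ℕ → TP := fun i => if i < K then a i else 0 with ha'
    refine mem_of_mul_cPoly p hK tQ.range fun d hd => ?_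
    have e := law_sub_lowDegree p TPQ (strictQ p) (fun i => tQ (a' i)) K hK
      (fun i _ hi => by rw [ha']; simp only; rw [if_pos hi]; exact (ha i hi).symm) d
      ((deg_eq_degree d).trans_le hd)
    rw [← map_law, ← hGQ, FormalGroup.map_toPowerSeries, coeff_map, coeff_map] at e
    simp only [ha', if_neg (lt_irrefl K), map_zero, sub_zero] at e
    refine ⟨coeff d (law p fun i => if i < K then a i else 0).toPowerSeries - coeff d G, ?_⟩
    rw [map_sub]
    linear_combination -e

/-- The universal transported parameter. -/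
def strictPoly (K : ℕ) : TP := (strictQ_mem p K).choose

lemma tQ_strictPoly (K : ℕ) : tQ (strictPoly p K) = strictQ p K := (strictQ_mem p K).choose_spec

end Universal

/-! ### Transport over any ring -/

section Transport

variable (p : ℕ) [hp : Fact p.Prime] {A : Type u} [CommRing A]

/-- Parameters of the source of the digit series, strict part. -/
def strictV (v τ : ℕ → A) (K : ℕ) : A :=
  MvPolynomial.aeval (Sum.elim v τ) (strictPoly p K)

/-- The universal transport polynomial. -/
def transPoly (K : ℕ) : TP :=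
  scaleV p (1 + MvPolynomial.X (Sum.inr 0)) (strictPoly p) K

/-- Transported parameters. -/
def transV (v τ : ℕ → A) (K : ℕ) : A := scaleV p (1 + τ 0) (strictV p v τ) K

/-- The transporting series. -/
def transSer (v τ : ℕ → A) : PowerSeries A :=
  (digitSer p (law p v) τ).subst (PowerSeries.C (1 + τ 0) * PowerSeries.X : PowerSeries A)

lemma transV_eq_aeval (v τ : ℕ → A) (K : ℕ) :
    transV p v τ K = MvPolynomial.aeval (Sum.elim v τ) (transPoly p K) := by
  simp [transV, transPoly, scaleV, strictV]

lemma map_strictV {B : Type v} [CommRing B] (g : A →+* B) (v τ : ℕ → A) (K : ℕ) :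
    g (strictV p v τ K) = strictV p (fun i => g (v i)) (fun i => g (τ i)) K := by
  have h : g.comp (MvPolynomial.aeval (Sum.elim v τ) : TP →ₐ[ℤ] A).toRingHom =
      (MvPolynomial.aeval (Sum.elim (fun i => g (v i)) fun i => g (τ i)) : TP →ₐ[ℤ] B).toRingHom :=
    MvPolynomial.ringHom_ext (fun r => by simp) (fun i => by rcases i with i | i <;> simp)
  exact congrFun (congrArg DFunLike.coe h) (strictPoly p K)

lemma map_transV {B : Type v} [CommRing B] (g : A →+* B) (v τ : ℕ → A) (K : ℕ) :
    g (transV p v τ K) = transV p (fun i => g (v i)) (fun i => g (τ i)) K := by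
  rw [transV, transV, map_scaleV, map_add, map_one]
  simp only [map_strictV p g]

lemma isHom_strictV (v τ : ℕ → A) :
    IsHom (law p (strictV p v τ)) (law p v) (digitSer p (law p v) τ) := by
  set v0 : ℕ → TP := fun i => MvPolynomial.X (Sum.inl i) with hv0
  set s0 : ℕ → TP := fun i => MvPolynomial.X (Sum.inr i) with hs0
  have h : IsHom (law p (strictPoly p)) (law p v0) (digitSer p (law p v0) s0) := by
    refine IsHom.of_map tQ tQ_injective (constantCoeff_digitSer _ _ _) ?_
    rw [map_law, map_law, map_digitSer, map_law]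
    simp only [tQ_strictPoly]
    rw [show (fun i => tQ (v0 i)) = tv from funext fun i => by simp [hv0, tv, tQ],
      show (fun i => tQ (s0 i)) = ts from funext fun i => by simp [hs0, ts, tQ]]
    exact isHom_strictQ p
  have e := h.map' (MvPolynomial.aeval (Sum.elim v τ) : TP →ₐ[ℤ] A).toRingHom
  rw [map_law, map_law, map_digitSer, map_law] at e
  simp only [hv0, hs0] at e
  simp at e
  exact e

/-- The transporting series is a homomorphism. -/
theorem isHom_transSer (v τ : ℕ → A) :
    IsHom (law p (transV p v τ)) (law p v) (transSer p v τ) :=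
  (isHom_scale p (1 + τ 0) (strictV p v τ)).comp (isHom_strictV p v τ)

lemma map_transSer {B : Type v} [CommRing B] (g : A →+* B) (v τ : ℕ → A) :
    PowerSeries.map g (transSer p v τ) = transSer p (fun i => g (v i)) (fun i => g (τ i)) := by
  rw [transSer, transSer]
  refine (map_subst_one g _ (a := (PowerSeries.C (1 + τ 0) * PowerSeries.X : PowerSeries A))
    (by change PowerSeries.constantCoeff _ = 0; simp)).trans ?_
  rw [map_digitSer, map_law]
  congr 1
  change PowerSeries.map g _ = _
  rw [map_mul, PowerSeries.map_C, PowerSeries.map_X, map_add, map_one]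

lemma coeff_one_transSer (v τ : ℕ → A) : PowerSeries.coeff 1 (transSer p v τ) = 1 + τ 0 := by
  rw [transSer, coeff_subst_lead_left le_rfl _ (fun m hm => by
    rw [Nat.lt_one_iff.mp hm, PowerSeries.coeff_zero_eq_constantCoeff_apply]; simp),
    coeff_one_digitSer, PowerSeries.coeff_C_mul, PowerSeries.coeff_one_X, one_mul, mul_one]

/-- Logarithms of the transported parameters. -/
theorem L_strictV (v τ : ℕ → A) (K : ℕ) :
    L p (strictV p v τ) K = ∑ i ∈ range (K + 1),
      (p : A) ^ i * (if i = 0 then 1 else τ i) ^ p ^ (K - i) * L p v (K - i) := by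
  have h : L p (strictPoly p) K = ∑ i ∈ range (K + 1), (p : TP) ^ i *
      (if i = 0 then 1 else MvPolynomial.X (Sum.inr i)) ^ p ^ (K - i) *
        L p (fun j => MvPolynomial.X (Sum.inl j)) (K - i) := by
    apply tQ_injective
    rw [map_L, map_sum]
    simp only [tQ_strictPoly]
    have e : L p (strictQ p) K = (p : TPQ) ^ K * digitLog p K := by
      rw [← hazCoeff_strictQ, hazCoeff_eq_L (p_mul_tc p)]
      calc L p (strictQ p) K = ((p : TPQ) * tc p) ^ K * L p (strictQ p) K := by
            rw [p_mul_tc, one_pow, one_mul]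
        _ = _ := by ring
    rw [e, digitLog, Finset.mul_sum]
    refine Finset.sum_congr rfl fun i hi => ?_
    rw [Finset.mem_range] at hi
    have hpow : (p : TPQ) ^ K * tc p ^ (K - i) = (p : TPQ) ^ i := by
      calc (p : TPQ) ^ K * tc p ^ (K - i)
          = (p : TPQ) ^ i * ((p : TPQ) * tc p) ^ (K - i) := by
            rw [mul_pow, ← mul_assoc, ← pow_add, Nat.add_sub_cancel' (by omega)]
        _ = _ := by rw [p_mul_tc, one_pow, mul_one]
    rw [map_mul, map_mul, map_pow, map_pow, map_natCast, map_L, apply_ite tQ, map_one]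
    simp only [ts, tQ, MvPolynomial.map_X]
    rw [← hpow, show (tv : ℕ → TPQ) = fun j => MvPolynomial.X (Sum.inl j) from rfl]
    ring
  have e := congrArg (MvPolynomial.aeval (Sum.elim v τ) : TP →ₐ[ℤ] A).toRingHom h
  rw [map_L, map_sum] at e
  refine e.trans (Finset.sum_congr rfl fun i _ => ?_)
  rw [map_mul, map_mul, map_pow, map_pow, map_natCast, map_L, apply_ite (DFunLike.coe _), map_one]
  simp

end Transport

/-! ### The differential at `(δ_n, 0)` -/

section Linear

open TrivSqZeroExt

variable (p : ℕ) [hp : Fact p.Prime]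

/-- Change of rings on dual numbers. -/
def dualMap {A : Type u} [CommRing A] {B : Type v} [CommRing B] (g : A →+* B) :
    DualNumber A →+* DualNumber B where
  toFun x := inl (g x.fst) + inr (g x.snd)
  map_one' := by ext <;> simp
  map_mul' x y := by ext <;> simp
  map_zero' := by ext <;> simp
  map_add' x y := by ext <;> simp

variable {B : Type u} [CommRing B]

/-- The base point `δ_n`. -/
def dualBase (n : ℕ) (i : ℕ) : DualNumber B := inl (vHonda n i)

/-- A tangent vector. -/
def dualDir (e : ℕ → B) (i : ℕ) : DualNumber B := inr (e i)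

lemma strictV_dual [IsDomain B] [CharZero B] {n : ℕ} (hn : 1 ≤ n) (e : ℕ → B) (K : ℕ) :
    (strictV p (dualBase n) (dualDir e) (K + 1)).fst = vHonda n (K + 1) ∧
      (strictV p (dualBase n) (dualDir e) (K + 1)).snd =
        (p : B) * e (K + 1) - if n ≤ K then
          e (K + 1 - n) + (p : B) * e n * L p (vHonda n (A := B)) (K + 1 - n) else 0 := by
  set T := strictV p (dualBase n) (dualDir e) with hT
  set δ : ℕ → B := vHonda n (A := B) with hδ
  have hp0 : (p : B) ≠ 0 := Nat.cast_ne_zero.mpr hp.out.ne_zero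
  have hbase : ∀ J, L p (dualBase (B := B) n) J = inl (L p δ J) := fun J =>
    (map_L p (inlHom B B) δ J).symm
  have hnat : ∀ J : ℕ, (p : DualNumber B) ^ J = inl ((p : B) ^ J) := fun J => by
    rw [← map_natCast (inlHom B B) p, inlHom_apply, inl_pow]
  have hLT : ∀ J, L p T J = inl (L p δ J) + inr (if J = 0 then 0 else (p : B) ^ J * e J) := by
    intro J
    rw [hT, L_strictV, Finset.sum_range_succ]
    rcases J with _ | J
    · simp [L_zero]
    · rw [Finset.sum_range_succ', Finset.sum_eq_zero, zero_add]
      · refine TrivSqZeroExt.ext ?_ ?_ <;> simp [hbase, dualDir, hnat, L_zero, mul_comm]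
      · intro i hi
        rw [Finset.mem_range] at hi
        rw [if_neg (Nat.succ_ne_zero i), dualDir]
        obtain ⟨r, hr⟩ : ∃ r, p ^ (J + 1 - (i + 1)) = r + 2 :=
          ⟨p ^ (J + 1 - (i + 1)) - 2, by
            have := le_trans hp.out.two_le (Nat.le_self_pow (show J + 1 - (i + 1) ≠ 0 by omega) p)
            omega⟩
        rw [hr, pow_add (inr (e (i + 1)) : DualNumber B), pow_two (inr (e (i + 1)) : DualNumber B),
          inr_mul_inr, mul_zero, mul_zero, zero_mul]
  have hfst : ∀ J, 1 ≤ J → (T J).fst = δ J := by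
    intro J
    induction J using Nat.strong_induction_on with
    | _ J ih =>
      intro hJ
      obtain ⟨J, rfl⟩ : ∃ J', J = J' + 1 := ⟨J - 1, by omega⟩
      have h := L_succ_sub (p := p) (V := fun i => (T i).fst) (V' := δ) (k := J)
        fun i a b => ih i b a
      have h2 : L p (fun i => (T i).fst) (J + 1) = L p δ (J + 1) := by
        have e' := map_L p (fstHom B B B : DualNumber B →ₐ[B] B).toRingHom T (J + 1)
        change (L p T (J + 1)).fst = L p (fun i => (T i).fst) (J + 1) at e'
        rw [← e', hLT]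
        simp
      rw [h2, sub_self, eq_comm, mul_eq_zero] at h
      exact sub_eq_zero.mp (h.resolve_right (pow_ne_zero _ hp0))
  have hterm : ∀ J i, i < J → (T (i + 1) ^ p ^ (J - i) * (p : DualNumber B) ^ i *
      L p T (J - i)).snd = if i + 1 = n then
        (p : B) ^ J * ((T n).snd * L p δ (J - i) + e (J - i)) else 0 := by
    intro J i hi
    have hf : (T (i + 1)).fst = if i + 1 = n then 1 else 0 := by
      rw [hfst _ (by omega), hδ, vHonda]
    have h1 : p ^ (J - i) ≠ 0 := pow_ne_zero _ hp.out.ne_zero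
    rw [hnat, hLT, DualNumber.snd_mul, DualNumber.snd_mul, fst_mul, snd_pow, fst_pow, hf,
      if_neg (show J - i ≠ 0 by omega)]
    simp only [fst_inl, snd_inl, fst_add, snd_add, fst_inr, snd_inr, add_zero, zero_add, mul_zero]
    by_cases h : i + 1 = n
    · have hsplit : (p : B) ^ J = (p : B) ^ (J - i) * (p : B) ^ i := by
        rw [← pow_add, Nat.sub_add_cancel hi.le]
      rw [if_pos h, if_pos h, ← h, hsplit]
      simp only [one_pow, smul_eq_mul, nsmul_eq_mul, Nat.cast_pow, one_mul]
      ring
    · obtain ⟨r, hr⟩ : ∃ r, p ^ (J - i) = r + 2 :=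
        ⟨p ^ (J - i) - 2, by
          have := le_trans hp.out.two_le (Nat.le_self_pow (show J - i ≠ 0 by omega) p); omega⟩
      rw [if_neg h, if_neg h, hr]
      simp
  have hrec : ∀ J, (p : B) * e (J + 1) = (T (J + 1)).snd + if n ≤ J then
      (T n).snd * L p δ (J + 1 - n) + e (J + 1 - n) else 0 := by
    intro J
    have h := congrArg TrivSqZeroExt.snd (L_succ p T J)
    rw [hLT, snd_add, snd_inl, zero_add, snd_inr, if_neg (Nat.succ_ne_zero J),
      TrivSqZeroExt.snd_sum, Finset.sum_range_succ, Nat.sub_self, pow_zero, pow_one, L_zero,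
      mul_one, hnat, DualNumber.snd_mul, fst_inl, snd_inl, mul_zero, zero_add,
      Finset.sum_congr rfl fun i hi => hterm J i (Finset.mem_range.mp hi)] at h
    refine mul_left_cancel₀ (pow_ne_zero J hp0) ?_
    by_cases hJ : n ≤ J
    · rw [Finset.sum_eq_single (n - 1) (fun i _ hi => if_neg (by omega))
        (fun h' => absurd (Finset.mem_range.mpr (by omega)) h'), if_pos (by omega),
        show J - (n - 1) = J + 1 - n by omega] at h
      rw [if_pos hJ]
      linear_combination h
    · rw [Finset.sum_eq_zero (fun i hi => if_neg (by rw [Finset.mem_range] at hi; omega))] at h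
      rw [if_neg hJ]
      linear_combination h
  have hn' : (T n).snd = (p : B) * e n := by
    obtain ⟨m, rfl⟩ : ∃ m, n = m + 1 := ⟨n - 1, by omega⟩
    have := hrec m
    rw [if_neg (by omega), add_zero] at this
    exact this.symm
  refine ⟨hfst _ (Nat.succ_pos K), ?_⟩
  have h := hrec K
  rw [hn'] at h
  split_ifs with hK
  · rw [if_pos hK] at h
    linear_combination -h
  · rw [if_neg hK, add_zero] at h
    rw [h, sub_zero]

/-- The differential of `transV` at `(δ_n, 0)`. -/
theorem transV_linear {n : ℕ} (hn : 1 ≤ n) (e : ℕ → B) {K : ℕ} (hK : 1 ≤ K) :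
    (transV p (dualBase n) (dualDir e) K).fst = vHonda n K ∧
      ∃ a b c : B, (transV p (dualBase n) (dualDir e) K).snd =
        -(if n ≤ K then e (K - n) else 0) + (p : B) * (a * e K + b * e n + c * e 0) := by
  suffices key : (transV p (dualBase (B := MvPolynomial ℕ ℤ) n) (dualDir MvPolynomial.X) K).fst =
      vHonda n K ∧ ∃ a b c : MvPolynomial ℕ ℤ,
      (transV p (dualBase (B := MvPolynomial ℕ ℤ) n) (dualDir MvPolynomial.X) K).snd =
        -(if n ≤ K then MvPolynomial.X (K - n) else 0) + (p : MvPolynomial ℕ ℤ) *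
          (a * MvPolynomial.X K + b * MvPolynomial.X n + c * MvPolynomial.X 0) by
    set g : MvPolynomial ℕ ℤ →+* B :=
      (MvPolynomial.aeval e : MvPolynomial ℕ ℤ →ₐ[ℤ] B).toRingHom with hg
    have hmap := map_transV p (dualMap g) (dualBase (B := MvPolynomial ℕ ℤ) n)
      (dualDir MvPolynomial.X) K
    rw [show (fun i => dualMap g (dualBase (B := MvPolynomial ℕ ℤ) n i)) = dualBase n from
        funext fun i => by simp [dualMap, dualBase, vHonda, apply_ite g],
      show (fun i => dualMap g (dualDir MvPolynomial.X i)) = dualDir e from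
        funext fun i => by simp [dualMap, dualDir, hg]] at hmap
    obtain ⟨h1, a, b, c, h2⟩ := key
    rw [← hmap]
    refine ⟨?_, g a, g b, g c, ?_⟩
    · simp [dualMap, h1, vHonda, apply_ite g]
    · simp [dualMap, h2, hg]
      split_ifs <;> simp
  obtain ⟨J, rfl⟩ : ∃ J, K = J + 1 := ⟨K - 1, by omega⟩
  obtain ⟨h1, h2⟩ := strictV_dual p hn (MvPolynomial.X : ℕ → MvPolynomial ℕ ℤ) J
  set T := strictV p (dualBase (B := MvPolynomial ℕ ℤ) n) (dualDir MvPolynomial.X) (J + 1) with hT
  have hf : (1 + dualDir (MvPolynomial.X : ℕ → MvPolynomial ℕ ℤ) 0).fst = 1 := by simp [dualDir]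
  have hs : (1 + dualDir (MvPolynomial.X : ℕ → MvPolynomial ℕ ℤ) 0).snd = MvPolynomial.X 0 := by
    simp [dualDir]
  have hfst : (transV p (dualBase (B := MvPolynomial ℕ ℤ) n) (dualDir MvPolynomial.X) (J + 1)).fst =
      vHonda n (J + 1) := by
    rw [transV, scaleV, fst_mul, fst_pow, hf, one_pow, one_mul, h1]
  refine ⟨hfst, ?_⟩
  have hsnd : (transV p (dualBase (B := MvPolynomial ℕ ℤ) n) (dualDir MvPolynomial.X) (J + 1)).snd =
      ((p : MvPolynomial ℕ ℤ) ^ (J + 1) - 1) * MvPolynomial.X 0 * vHonda n (J + 1) + T.snd := by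
    rw [transV, scaleV, DualNumber.snd_mul, fst_pow, snd_pow, hf, hs, one_pow, one_pow, one_mul,
      ← hT, h1]
    simp only [smul_eq_mul, nsmul_eq_mul, one_mul]
    rw [Nat.cast_sub (Nat.one_le_pow _ _ hp.out.pos), Nat.cast_pow, Nat.cast_one]
    ring
  rw [hsnd, h2]
  rcases lt_trichotomy (J + 1) n with h | h | h
  · refine ⟨1, 0, 0, ?_⟩
    rw [vHonda, if_neg h.ne, if_neg (by omega), if_neg (by omega)]
    ring
  · refine ⟨1, 0, (p : MvPolynomial ℕ ℤ) ^ J, ?_⟩
    rw [vHonda, if_pos h, if_neg (by omega), if_pos h.ge, show J + 1 - n = 0 by omega]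
    ring
  · refine ⟨1, -L p (vHonda n (A := MvPolynomial ℕ ℤ)) (J + 1 - n), 0, ?_⟩
    rw [vHonda, if_neg h.ne', if_pos (by omega), if_pos (by omega)]
    ring

end Linear

end Vale.Agent.P217
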